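import Vale.Agent.Lib.P225.Sphere

namespace Vale.Agent.Lib.P225

open MeasureTheory Set Filter Topology

variable {n : ℕ}

lemma sum_identity (y l : Fin n → ℝ) (b : Fin n → Fin n → ℝ) :
    ∑ i, ∑ j, (y i ^ 2 * b j j - y i * y j * b j i - y i * y j * b i j + y j ^ 2 * b i i
      + ((y i * (if i = j then 1 else 0) - y j) * l j
        - (y i - y j * (if j = i then 1 else 0)) * l i))
    = 2 * (∑ i, y i ^ 2) * (∑ i, b i i) - 2 * ∑ i, ∑ j, y i * y j * b i j
      - 2 * ((n : ℝ) - 1) * ∑ i, y i * l i := by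
  have e1 : ∑ i, ∑ j, y i ^ 2 * b j j = (∑ i, y i ^ 2) * (∑ i, b i i) := by
    rw [Finset.sum_mul_sum]
  have e2 : ∑ i, ∑ j, y i * y j * b j i = ∑ i, ∑ j, y i * y j * b i j := by
    rw [Finset.sum_comm]
    apply Finset.sum_congr rfl; intro i _
    apply Finset.sum_congr rfl; intro j _
    ring
  have e3 : ∑ i, ∑ j, y j ^ 2 * b i i = (∑ i, y i ^ 2) * (∑ i, b i i) := by
    rw [Finset.sum_comm, Finset.sum_mul_sum]
  have e4 : ∑ i, ∑ j, (y i * (if i = j then 1 else 0) - y j) * l j
      = (1 - (n : ℝ)) * ∑ i, y i * l i := by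
    simp only [sub_mul, Finset.sum_sub_distrib, mul_ite, mul_one, mul_zero, ite_mul, zero_mul,
      Finset.sum_ite_eq, Finset.mem_univ, if_true, Finset.sum_const, Finset.card_univ,
      Fintype.card_fin, nsmul_eq_mul]
    ring
  have e5 : ∑ i, ∑ j, (y i - y j * (if j = i then 1 else 0)) * l i
      = ((n : ℝ) - 1) * ∑ i, y i * l i := by
    simp only [sub_mul, Finset.sum_sub_distrib, mul_ite, mul_one, mul_zero, ite_mul, zero_mul,
      Finset.sum_ite_eq', Finset.mem_univ, if_true, Finset.sum_const, Finset.card_univ,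
      Fintype.card_fin, nsmul_eq_mul, Finset.mul_sum]
    ring_nf
  simp only [Finset.sum_add_distrib, Finset.sum_sub_distrib, e1, e2, e3, e4, e5]
  ring

lemma LJ_zero (G : EE n → ℝ) : LJ (0 : EE n →L[ℝ] EE n) G = fun _ => 0 := by
  funext y
  simp [LJ]

lemma Jmap_self (a : EE n) : Jmap a a = 0 := by
  simp [Jmap]

lemma contDiff_LJ_one (J : EE n →L[ℝ] EE n) {G : EE n → ℝ} (hG : ContDiff ℝ 2 G) :
    ContDiff ℝ 1 (LJ J G) := by
  unfold LJ
  exact (hG.fderiv_right (m := 1) (by norm_num)).clm_apply J.contDiff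

lemma continuous_LJ (J : EE n →L[ℝ] EE n) {G : EE n → ℝ} (hG : ContDiff ℝ 1 G) :
    Continuous (LJ J G) := by
  unfold LJ
  exact (hG.continuous_fderiv (by norm_num)).clm_apply J.continuous

lemma LJ_mul (J : EE n →L[ℝ] EE n) {G H : EE n → ℝ} (hG : Differentiable ℝ G)
    (hH : Differentiable ℝ H) (y : EE n) :
    LJ J (fun z => G z * H z) y = LJ J G y * H y + G y * LJ J H y := by
  have h := ((hG y).hasFDerivAt.mul (hH y).hasFDerivAt).fderiv
  change fderiv ℝ (G * H) y (J y) = fderiv ℝ G y (J y) * H y + G y * fderiv ℝ H y (J y)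
  rw [h]
  simp
  ring

lemma LJ_LJ (J : EE n →L[ℝ] EE n) {G : EE n → ℝ} (hG : ContDiff ℝ 2 G) (y : EE n) :
    LJ J (LJ J G) y = fderiv ℝ (fderiv ℝ G) y (J y) (J y) + fderiv ℝ G y (J (J y)) := by
  have h1 : HasFDerivAt (fderiv ℝ G) (fderiv ℝ (fderiv ℝ G) y) y :=
    ((hG.fderiv_right (m := 1) (by norm_num)).differentiable (by norm_num) y).hasFDerivAt
  have h2 : HasFDerivAt (fun z => J z) J y := J.hasFDerivAt
  have h3 := h1.clm_apply h2
  have h4 : LJ J (LJ J G) y = fderiv ℝ (fun z => fderiv ℝ G z (J z)) y (J y) := rfl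
  rw [h4, h3.fderiv]
  simp [add_comm]

/-- Skew-symmetry of the rotational derivative on the sphere. -/
lemma sphMean_LJ_mul {a b : EE n} (ha : ‖a‖ = 1) (hb : ‖b‖ = 1) (hab : inner ℝ a b = 0)
    {G H : EE n → ℝ} (hG : ContDiff ℝ 1 G) (hH : ContDiff ℝ 1 H) :
    sphMean (fun y => LJ (Jmap a b) G y * H y) = - sphMean (fun y => G y * LJ (Jmap a b) H y) := by
  have h1 := sphMean_LJ ha hb hab (hG.mul hH)
  have h2 : LJ (Jmap a b) (fun x => G x * H x)
      = fun y => LJ (Jmap a b) G y * H y + G y * LJ (Jmap a b) H y := by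
    funext y
    exact LJ_mul _ (hG.differentiable (by norm_num)) (hH.differentiable (by norm_num)) y
  rw [h2, sphMean_add] at h1
  · linarith
  · exact ((continuous_LJ _ hG).mul hH.continuous).continuousOn
  · exact (hG.continuous.mul (continuous_LJ _ hH)).continuousOn

/-- Symmetry of the second rotational derivative on the sphere. -/
lemma sphMean_LJ_LJ_symm {a b : EE n} (ha : ‖a‖ = 1) (hb : ‖b‖ = 1) (hab : inner ℝ a b = 0)
    {G H : EE n → ℝ} (hG : ContDiff ℝ 2 G) (hH : ContDiff ℝ 2 H) :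
    sphMean (fun y => LJ (Jmap a b) (LJ (Jmap a b) G) y * H y)
      = sphMean (fun y => G y * LJ (Jmap a b) (LJ (Jmap a b) H) y) := by
  have hG1 : ContDiff ℝ 1 G := hG.of_le (by norm_num)
  have hH1 : ContDiff ℝ 1 H := hH.of_le (by norm_num)
  rw [sphMean_LJ_mul ha hb hab (contDiff_LJ_one _ hG) hH1]
  have h2 := sphMean_LJ_mul ha hb hab hG1 (contDiff_LJ_one (Jmap a b) hH)
  linarith

open Laplacian in
/-- The Laplace-Beltrami operator of the unit sphere applied to the restriction of `G`,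
expressed through ambient derivatives of `G`. -/
noncomputable def Lam (G : EE n → ℝ) (y : EE n) : ℝ :=
  ‖y‖ ^ 2 * Δ G y - fderiv ℝ (fderiv ℝ G) y y y - ((n : ℝ) - 1) * fderiv ℝ G y y

open Laplacian in
lemma sum_LJ_LJ (v : OrthonormalBasis (Fin n) ℝ (EE n)) {G : EE n → ℝ} (hG : ContDiff ℝ 2 G)
    (y : EE n) :
    ∑ i, ∑ j, LJ (Jmap (v i) (v j)) (LJ (Jmap (v i) (v j)) G) y = 2 * Lam G y := by
  set B := fderiv ℝ (fderiv ℝ G) y with hB
  set Lf := fderiv ℝ G y with hLf
  set c : Fin n → ℝ := fun i => inner ℝ (v i) y with hc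
  have hy : y = ∑ i, c i • v i := (v.sum_repr' y).symm
  have hvv : ∀ i j, inner ℝ (v i) (v j) = if i = j then (1 : ℝ) else 0 :=
    fun i j => orthonormal_iff_ite.mp v.orthonormal i j
  have hterm : ∀ i j, LJ (Jmap (v i) (v j)) (LJ (Jmap (v i) (v j)) G) y
      = (c i ^ 2 * B (v j) (v j) - c i * c j * B (v j) (v i) - c i * c j * B (v i) (v j)
          + c j ^ 2 * B (v i) (v i)
        + ((c i * (if i = j then 1 else 0) - c j) * Lf (v j)
          - (c i - c j * (if j = i then 1 else 0)) * Lf (v i))) := by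
    intro i j
    rw [LJ_LJ _ hG]
    simp only [Jmap_apply, ← hB, ← hLf, map_sub, map_smul, sub_apply,
      smul_apply, smul_eq_mul, hvv]
    simp only [hc, if_true]
    ring
  simp only [hterm]
  refine (sum_identity c (fun i => Lf (v i)) (fun i j => B (v i) (v j))).trans ?_
  have e1 : ∑ i, c i ^ 2 = ‖y‖ ^ 2 := v.sum_sq_inner_right y
  have e2 : ∑ i, B (v i) (v i) = Δ G y := by
    rw [InnerProductSpace.laplacian_eq_iteratedFDeriv_orthonormalBasis G v]
    simp [iteratedFDeriv_two_apply, hB]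
  have e3 : ∑ i, ∑ j, c i * c j * B (v i) (v j) = B y y := by
    conv_rhs => rw [hy]
    simp only [map_sum, map_smul, sum_apply, smul_apply,
      smul_eq_mul, Finset.mul_sum]
    rw [Finset.sum_comm]
    apply Finset.sum_congr rfl; intro i _
    apply Finset.sum_congr rfl; intro j _
    ring
  have e4 : ∑ i, c i * Lf (v i) = Lf y := by
    conv_rhs => rw [hy]
    simp [map_sum, map_smul]
  rw [e1, e2, e3, e4]
  unfold Lam
  ring

lemma continuous_LJ_LJ (J : EE n →L[ℝ] EE n) {G : EE n → ℝ} (hG : ContDiff ℝ 2 G) :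
    Continuous (LJ J (LJ J G)) :=
  continuous_LJ J (contDiff_LJ_one J hG)

lemma sphMean_pair_symm (v : OrthonormalBasis (Fin n) ℝ (EE n)) {G H : EE n → ℝ}
    (hG : ContDiff ℝ 2 G) (hH : ContDiff ℝ 2 H) (i j : Fin n) :
    sphMean (fun y => LJ (Jmap (v i) (v j)) (LJ (Jmap (v i) (v j)) G) y * H y)
      = sphMean (fun y => G y * LJ (Jmap (v i) (v j)) (LJ (Jmap (v i) (v j)) H) y) := by
  by_cases hij : i = j
  · subst hij
    simp [Jmap_self, LJ_zero]
  · exact sphMean_LJ_LJ_symm (v.orthonormal.1 i) (v.orthonormal.1 j) (v.orthonormal.2 hij) hG hH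

/-- The spherical Laplacian is symmetric with respect to integration over the sphere. -/
lemma sphMean_Lam_symm {G H : EE n → ℝ} (hG : ContDiff ℝ 2 G) (hH : ContDiff ℝ 2 H) :
    sphMean (fun y => Lam G y * H y) = sphMean (fun y => G y * Lam H y) := by
  set v : OrthonormalBasis (Fin n) ℝ (EE n) := EuclideanSpace.basisFun (Fin n) ℝ with hv
  have h1 : sphMean (fun y => 2 * (Lam G y * H y))
      = ∑ i, ∑ j, sphMean (fun y => LJ (Jmap (v i) (v j)) (LJ (Jmap (v i) (v j)) G) y * H y) := by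
    have e : (fun y => 2 * (Lam G y * H y))
        = fun y => ∑ i, ∑ j, LJ (Jmap (v i) (v j)) (LJ (Jmap (v i) (v j)) G) y * H y := by
      funext y
      rw [← mul_assoc, ← sum_LJ_LJ v hG y, Finset.sum_mul]
      apply Finset.sum_congr rfl; intro i _
      rw [Finset.sum_mul]
    rw [e, sphMean_finset_sum]
    · apply Finset.sum_congr rfl; intro i _
      rw [sphMean_finset_sum]
      intro j _
      exact ((continuous_LJ_LJ _ hG).mul hH.continuous).continuousOn
    · intro i _
      apply Continuous.continuousOn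
      apply continuous_finsetSum
      intro j _
      exact (continuous_LJ_LJ _ hG).mul hH.continuous
  have h2 : sphMean (fun y => 2 * (G y * Lam H y))
      = ∑ i, ∑ j, sphMean (fun y => G y * LJ (Jmap (v i) (v j)) (LJ (Jmap (v i) (v j)) H) y) := by
    have e : (fun y => 2 * (G y * Lam H y))
        = fun y => ∑ i, ∑ j, G y * LJ (Jmap (v i) (v j)) (LJ (Jmap (v i) (v j)) H) y := by
      funext y
      rw [mul_left_comm, ← sum_LJ_LJ v hH y, Finset.mul_sum]
      apply Finset.sum_congr rfl; intro i _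
      rw [Finset.mul_sum]
    rw [e, sphMean_finset_sum]
    · apply Finset.sum_congr rfl; intro i _
      rw [sphMean_finset_sum]
      intro j _
      exact (hG.continuous.mul (continuous_LJ_LJ _ hH)).continuousOn
    · intro i _
      apply Continuous.continuousOn
      apply continuous_finsetSum
      intro j _
      exact hG.continuous.mul (continuous_LJ_LJ _ hH)
  have h3 : sphMean (fun y => 2 * (Lam G y * H y)) = sphMean (fun y => 2 * (G y * Lam H y)) := by
    rw [h1, h2]
    apply Finset.sum_congr rfl; intro i _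
    apply Finset.sum_congr rfl; intro j _
    exact sphMean_pair_symm v hG hH i j
  rw [sphMean_const_mul, sphMean_const_mul] at h3
  linarith

end Vale.Agent.Lib.P225
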