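import Vale.Agent.Lib.P225.Poly
import Vale.Agent.Lib.P225.SphLap

namespace Vale.Agent.Lib.P225

open MvPolynomial

variable {n : ℕ}

/-- The polynomial function on Euclidean space attached to a polynomial. -/
noncomputable def pf (P : MvPolynomial (Fin n) ℝ) (x : EE n) : ℝ :=
  MvPolynomial.eval (fun i => x i) P

@[simp] lemma pf_add (P Q : MvPolynomial (Fin n) ℝ) (x : EE n) :
    pf (P + Q) x = pf P x + pf Q x := by simp [pf]

@[simp] lemma pf_mul (P Q : MvPolynomial (Fin n) ℝ) (x : EE n) :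
    pf (P * Q) x = pf P x * pf Q x := by simp [pf]

@[simp] lemma pf_C (a : ℝ) (x : EE n) : pf (C a : MvPolynomial (Fin n) ℝ) x = a := by simp [pf]

@[simp] lemma pf_X (i : Fin n) (x : EE n) : pf (X i : MvPolynomial (Fin n) ℝ) x = x i := by
  simp [pf]

@[simp] lemma pf_zero (x : EE n) : pf (0 : MvPolynomial (Fin n) ℝ) x = 0 := by simp [pf]

@[simp] lemma pf_one (x : EE n) : pf (1 : MvPolynomial (Fin n) ℝ) x = 1 := by simp [pf]

lemma pf_sum {ι : Type*} (s : Finset ι) (f : ι → MvPolynomial (Fin n) ℝ) (x : EE n) :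
    pf (∑ i ∈ s, f i) x = ∑ i ∈ s, pf (f i) x := by simp [pf, map_sum]

lemma pf_smul (a : ℝ) (P : MvPolynomial (Fin n) ℝ) (x : EE n) :
    pf (a • P) x = a * pf P x := by simp [pf]

lemma pf_nsmul (l : ℕ) (P : MvPolynomial (Fin n) ℝ) (x : EE n) :
    pf (l • P) x = l * pf P x := by simp [pf]

lemma hasFDerivAt_pf (P : MvPolynomial (Fin n) ℝ) (x : EE n) :
    HasFDerivAt (pf P) (∑ i, pf (pderiv i P) x • (EuclideanSpace.proj i : EE n →L[ℝ] ℝ)) x := by
  induction P using MvPolynomial.induction_on with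
  | C a =>
    have h : pf (C a : MvPolynomial (Fin n) ℝ) = fun _ => a := by funext z; simp
    rw [h]
    simpa using hasFDerivAt_const a x
  | add p q hp hq =>
    have h : pf (p + q) = fun z => pf p z + pf q z := by funext z; simp
    rw [h]
    refine (hp.add hq).congr_fderiv ?_
    simp [Finset.sum_add_distrib, add_smul]
  | mul_X p j hp =>
    have h : pf (p * X j) = fun z => pf p z * z j := by funext z; simp
    rw [h]
    have hx : HasFDerivAt (fun z : EE n => z j) (EuclideanSpace.proj j : EE n →L[ℝ] ℝ) x :=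
      (EuclideanSpace.proj j : EE n →L[ℝ] ℝ).hasFDerivAt
    refine (hp.mul hx).congr_fderiv ?_
    simp only [Derivation.leibniz, pderiv_X, pf_add, smul_eq_mul, pf_mul, pf_X, add_smul,
      Finset.sum_add_distrib]
    congr 1
    · rw [Finset.sum_eq_single j]
      · simp
      · intro b _ hb
        simp [Pi.single_eq_of_ne (Ne.symm hb)]
      · simp
    · rw [Finset.smul_sum]
      simp [mul_smul]

lemma differentiable_pf (P : MvPolynomial (Fin n) ℝ) : Differentiable ℝ (pf P) :=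
  fun x => (hasFDerivAt_pf P x).differentiableAt

lemma fderiv_pf (P : MvPolynomial (Fin n) ℝ) :
    fderiv ℝ (pf P) = fun x => ∑ i, pf (pderiv i P) x • (EuclideanSpace.proj i : EE n →L[ℝ] ℝ) := by
  funext x
  exact (hasFDerivAt_pf P x).fderiv

lemma fderiv_pf_apply (P : MvPolynomial (Fin n) ℝ) (x h : EE n) :
    fderiv ℝ (pf P) x h = ∑ i, pf (pderiv i P) x * h i := by
  rw [fderiv_pf]
  simp

lemma contDiff_pf (P : MvPolynomial (Fin n) ℝ) (m : WithTop ℕ∞) : ContDiff ℝ m (pf P) := by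
  induction P using MvPolynomial.induction_on with
  | C a =>
    have h : pf (C a : MvPolynomial (Fin n) ℝ) = fun _ => a := by funext z; simp
    rw [h]
    exact contDiff_const
  | add p q hp hq =>
    have h : pf (p + q) = fun z => pf p z + pf q z := by funext z; simp
    rw [h]
    exact hp.add hq
  | mul_X p j hp =>
    have h : pf (p * X j) = fun z => pf p z * z j := by funext z; simp
    rw [h]
    exact hp.mul (EuclideanSpace.proj j : EE n →L[ℝ] ℝ).contDiff

lemma fderiv_fderiv_pf_apply (P : MvPolynomial (Fin n) ℝ) (x h h' : EE n) :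
    fderiv ℝ (fderiv ℝ (pf P)) x h h' = ∑ i, ∑ k, pf (pderiv k (pderiv i P)) x * h k * h' i := by
  have h1 : HasFDerivAt (fderiv ℝ (pf P))
      (∑ i, (∑ k, pf (pderiv k (pderiv i P)) x • (EuclideanSpace.proj k : EE n →L[ℝ] ℝ)).smulRight
        (EuclideanSpace.proj i : EE n →L[ℝ] ℝ)) x := by
    rw [fderiv_pf]
    apply HasFDerivAt.fun_sum
    intro i _
    exact (hasFDerivAt_pf (pderiv i P) x).smul_const (EuclideanSpace.proj i : EE n →L[ℝ] ℝ)
  rw [h1.fderiv]
  simp [Finset.sum_mul]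

open Laplacian in
lemma laplacian_pf (P : MvPolynomial (Fin n) ℝ) (x : EE n) :
    Δ (pf P) x = pf (lapP n P) x := by
  rw [InnerProductSpace.laplacian_eq_iteratedFDeriv_orthonormalBasis (pf P)
    (EuclideanSpace.basisFun (Fin n) ℝ)]
  simp only [iteratedFDeriv_two_apply, Matrix.cons_val_zero, Matrix.cons_val_one,
    fderiv_fderiv_pf_apply, lapP_apply, pf_sum, EuclideanSpace.basisFun_apply,
    PiLp.single_apply]
  apply Finset.sum_congr rfl
  intro j _
  simp

lemma euler_pf {Q : MvPolynomial (Fin n) ℝ} {d : ℕ} (hQ : Q.IsHomogeneous d) (y : EE n) :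
    ∑ k, pf (pderiv k Q) y * y k = d * pf Q y := by
  have h := congrArg (fun R => pf R y) hQ.sum_X_mul_pderiv
  simp only [pf_sum, pf_mul, pf_X, pf_nsmul] at h
  rw [← h]
  apply Finset.sum_congr rfl
  intro k _
  ring

lemma fderiv_pf_self {Q : MvPolynomial (Fin n) ℝ} {d : ℕ} (hQ : Q.IsHomogeneous d) (y : EE n) :
    fderiv ℝ (pf Q) y y = d * pf Q y := by
  rw [fderiv_pf_apply, euler_pf hQ]

lemma fderiv_fderiv_pf_self {Q : MvPolynomial (Fin n) ℝ} {d : ℕ} (hQ : Q.IsHomogeneous d)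
    (y : EE n) : fderiv ℝ (fderiv ℝ (pf Q)) y y y = (d : ℝ) * ((d : ℝ) - 1) * pf Q y := by
  rw [fderiv_fderiv_pf_apply]
  have h1 : ∀ i, ∑ k, pf (pderiv k (pderiv i Q)) y * y k * y i
      = ((d - 1 : ℕ) : ℝ) * (pf (pderiv i Q) y * y i) := by
    intro i
    rw [← Finset.sum_mul, euler_pf (hQ.pderiv (i := i))]
    ring
  simp only [h1]
  rw [← Finset.mul_sum, euler_pf hQ]
  rcases Nat.eq_zero_or_pos d with hd | hd
  · subst hd; simp
  · have : ((d - 1 : ℕ) : ℝ) = (d : ℝ) - 1 := by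
      rw [Nat.cast_sub hd]; simp
    rw [this]; ring

/-- A homogeneous harmonic polynomial of degree `l` is an eigenfunction of the spherical
Laplacian with eigenvalue `-l (l + n - 2)`. -/
lemma Lam_pf {Y : MvPolynomial (Fin n) ℝ} {l : ℕ} (hY : Y ∈ harmSub n l) (y : EE n) :
    Lam (pf Y) y = -((l : ℝ) * ((l : ℝ) + n - 2)) * pf Y y := by
  obtain ⟨h1, h2⟩ := mem_harmSub.mp hY
  unfold Lam
  rw [laplacian_pf, h2, fderiv_pf_self h1, fderiv_fderiv_pf_self h1]
  simp
  ring

lemma pf_rsq (x : EE n) : pf (rsq n) x = ‖x‖ ^ 2 := by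
  rw [EuclideanSpace.real_norm_sq_eq]
  simp [rsq, pf]

end Vale.Agent.Lib.P225
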