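import Mathlib

namespace Vale.Agent.Lib.P225

open Set Filter Topology

/-- Hypotheses for a regular solution `c` of the radial equation of mode `l` on the
rotationally symmetric manifold `dr^2 + f(r)^2 g_S` of dimension `m + 3`. -/
structure RadialData (m l : ℕ) (f f' c c' c'' : ℝ → ℝ) : Prop where
  hf : ∀ r, 0 < r → HasDerivAt f (f' r) r
  hc : ∀ r, 0 < r → HasDerivAt c (c' r) r
  hc' : ∀ r, 0 < r → HasDerivAt c' (c'' r) r
  fpos : ∀ r, 0 < r → 0 < f r
  fle : ∀ r, 0 < r → f r ≤ r
  f'le : ∀ r, 0 < r → r * f' r ≤ f r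
  ode : ∀ r, 0 < r →
    c'' r + ((m : ℝ) + 2) * (f' r / f r) * c' r - (l : ℝ) * (l + m + 1) * c r / (f r) ^ 2 = 0
  bdd : ∃ B, ∀ r, 0 < r → r ≤ 1 → |c r| ≤ B ∧ |c' r| ≤ B

variable {m l : ℕ} {f f' c c' c'' : ℝ → ℝ}

/-- The monotone quantity. -/
noncomputable def zfun (m l : ℕ) (f c c' : ℝ → ℝ) (s : ℝ) : ℝ :=
  f s ^ (m + 2) * (c s * (c' s - l * c s / s))

lemma zfun_hasDerivAt (h : RadialData m l f f' c c' c'') {r : ℝ} (hr : 0 < r) :
    HasDerivAt (zfun m l f c c')
      ((((m + 2 : ℕ) : ℝ) * f r ^ (m + 1) * f' r) * (c r * (c' r - l * c r / r))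
        + f r ^ (m + 2) * (c' r * (c' r - l * c r / r)
          + c r * (c'' r - ((l : ℝ) * c' r * r - (l : ℝ) * c r * 1) / r ^ 2))) r := by
  have h1 := (h.hf r hr).pow (m + 2)
  have h2 : HasDerivAt (fun s => (l : ℝ) * c s / s)
      (((l : ℝ) * c' r * r - (l : ℝ) * c r * 1) / r ^ 2) r :=
    ((h.hc r hr).const_mul (l : ℝ)).div (hasDerivAt_id r) hr.ne'
  have h3 := (h.hc' r hr).sub h2
  have h4 := (h.hc r hr).mul h3
  have h5 := h1.mul h4
  have h6 := h5.congr_of_eventuallyEq (f₁ := zfun m l f c c')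
    (Eventually.of_forall (fun s => by simp [zfun]))
  refine h6.congr_deriv ?_
  simp only [Pi.mul_apply, Pi.sub_apply, Pi.pow_apply]
  have : m + 2 - 1 = m + 1 := by omega
  rw [this]

lemma zfun_deriv_nonneg (h : RadialData m l f f' c c' c'') {r : ℝ} (hr : 0 < r) :
    0 ≤ (((m + 2 : ℕ) : ℝ) * f r ^ (m + 1) * f' r) * (c r * (c' r - l * c r / r))
        + f r ^ (m + 2) * (c' r * (c' r - l * c r / r)
          + c r * (c'' r - ((l : ℝ) * c' r * r - (l : ℝ) * c r * 1) / r ^ 2)) := by
  have hf := h.fpos r hr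
  have hfle := h.fle r hr
  have hf'le := h.f'le r hr
  have hode := h.ode r hr
  have hc'' : c'' r = -(((m : ℝ) + 2) * (f' r / f r) * c' r)
      + (l : ℝ) * (l + m + 1) * c r / (f r) ^ 2 := by linarith
  have key : (((m + 2 : ℕ) : ℝ) * f r ^ (m + 1) * f' r) * (c r * (c' r - l * c r / r))
        + f r ^ (m + 2) * (c' r * (c' r - l * c r / r)
          + c r * (c'' r - ((l : ℝ) * c' r * r - (l : ℝ) * c r * 1) / r ^ 2))
      = f r ^ (m + 1) * (f r * (c' r - l * c r / r) ^ 2
          + c r ^ 2 * ((l : ℝ) * (l + m + 1) / f r - (l : ℝ) * (l - 1) * f r / r ^ 2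
              - ((m : ℝ) + 2) * l * f' r / r)) := by
    rw [hc'']
    push_cast
    field_simp
    ring
  rw [key]
  apply mul_nonneg (by positivity)
  apply add_nonneg (by positivity)
  apply mul_nonneg (by positivity)
  -- the potential term
  have hl : (0 : ℝ) ≤ l := by positivity
  have hm : (0 : ℝ) ≤ m := by positivity
  have e1 : (l : ℝ) * (l + m + 1) * f r / r ^ 2 ≤ (l : ℝ) * (l + m + 1) / f r := by
    rw [div_le_div_iff₀ (by positivity) hf]
    have : f r * f r ≤ r ^ 2 := by nlinarith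
    have h0 : (0 : ℝ) ≤ (l : ℝ) * (l + m + 1) := by positivity
    nlinarith
  have e2 : ((m : ℝ) + 2) * l * f' r / r ≤ ((m : ℝ) + 2) * l * f r / r ^ 2 := by
    rw [div_le_div_iff₀ hr (by positivity)]
    have h0 : (0 : ℝ) ≤ ((m : ℝ) + 2) * l := by positivity
    have : r * f' r * r ≤ f r * r := by nlinarith
    nlinarith
  have e3 : (l : ℝ) * (l + m + 1) * f r / r ^ 2 - (l : ℝ) * (l - 1) * f r / r ^ 2
      - ((m : ℝ) + 2) * l * f r / r ^ 2 = 0 := by
    field_simp
    ring
  linarith

lemma zfun_monotoneOn (h : RadialData m l f f' c c' c'') :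
    MonotoneOn (zfun m l f c c') (Ioi 0) := by
  apply monotoneOn_of_deriv_nonneg (convex_Ioi 0)
  · intro r hr
    exact (zfun_hasDerivAt h hr).continuousAt.continuousWithinAt
  · intro r hr
    rw [interior_Ioi] at hr
    exact (zfun_hasDerivAt h hr).differentiableAt.differentiableWithinAt
  · intro r hr
    rw [interior_Ioi] at hr
    rw [(zfun_hasDerivAt h hr).deriv]
    exact zfun_deriv_nonneg h hr

lemma zfun_nonneg (h : RadialData m l f f' c c' c'') {r : ℝ} (hr : 0 < r) :
    0 ≤ zfun m l f c c' r := by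
  obtain ⟨B, hB⟩ := h.bdd
  have hB0 : 0 ≤ B := le_trans (abs_nonneg _) (hB 1 one_pos le_rfl).1
  -- bound near zero
  have hsmall : ∀ s, 0 < s → s ≤ 1 → s ≤ r → -(B * (B + l * B) * s) ≤ zfun m l f c c' r := by
    intro s hs hs1 hsr
    have hmono := zfun_monotoneOn h (mem_Ioi.mpr hs) (mem_Ioi.mpr hr) hsr
    refine le_trans ?_ hmono
    have hf := h.fpos s hs
    have hfle := h.fle s hs
    obtain ⟨hc1, hc2⟩ := hB s hs hs1
    have h1 : |zfun m l f c c' s| ≤ B * (B + l * B) * s := by
      unfold zfun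
      rw [abs_mul, abs_mul, abs_pow, abs_of_pos hf]
      have h2 : f s ^ (m + 2) ≤ s ^ (m + 2) := pow_le_pow_left₀ hf.le hfle _
      have h3 : s ^ (m + 2) ≤ s ^ 2 := pow_le_pow_of_le_one hs.le hs1 (by omega)
      have h4 : |c' s - l * c s / s| ≤ B + l * B / s := by
        refine le_trans (abs_sub _ _) ?_
        have : |(l : ℝ) * c s / s| = l * |c s| / s := by
          rw [abs_div, abs_mul, abs_of_pos hs, abs_of_nonneg (by positivity : (0 : ℝ) ≤ l)]
        rw [this]
        have : (l : ℝ) * |c s| / s ≤ l * B / s := by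
          apply div_le_div_of_nonneg_right _ hs.le
          exact mul_le_mul_of_nonneg_left hc1 (by positivity)
        linarith
      have h5 : B + l * B / s ≤ (B + l * B) / s := by
        rw [add_div]
        have : B ≤ B / s := by
          rw [le_div_iff₀ hs]
          nlinarith
        linarith
      calc f s ^ (m + 2) * (|c s| * |c' s - l * c s / s|)
          ≤ s ^ 2 * (B * ((B + l * B) / s)) := by
            apply mul_le_mul (le_trans h2 h3) _ (by positivity) (by positivity)
            apply mul_le_mul hc1 (le_trans h4 h5) (abs_nonneg _) hB0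
        _ = B * (B + l * B) * s := by
            field_simp
    linarith [neg_abs_le (zfun m l f c c' s), h1]
  by_contra hneg
  rw [not_le] at hneg
  -- choose s small
  set K := B * (B + l * B) with hK
  have hK0 : 0 ≤ K := by positivity
  set s := min (min 1 r) (-(zfun m l f c c' r) / (2 * (K + 1))) with hs
  have hs0 : 0 < s := by
    apply lt_min (lt_min one_pos hr)
    apply div_pos (by linarith) (by positivity)
  have hs1 : s ≤ 1 := le_trans (min_le_left _ _) (min_le_left _ _)
  have hsr : s ≤ r := le_trans (min_le_left _ _) (min_le_right _ _)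
  have hs2 : s ≤ -(zfun m l f c c' r) / (2 * (K + 1)) := min_le_right _ _
  have := hsmall s hs0 hs1 hsr
  have h3 : K * s ≤ K * (-(zfun m l f c c' r) / (2 * (K + 1))) :=
    mul_le_mul_of_nonneg_left hs2 hK0
  have h4 : K * (-(zfun m l f c c' r) / (2 * (K + 1))) ≤ -(zfun m l f c c' r) / 2 := by
    rw [mul_div_assoc', div_le_div_iff₀ (by positivity) (by positivity)]
    nlinarith
  linarith

/-- The normalised square `c^2 / r^(2l)` is nondecreasing on `(0, ∞)`. -/
lemma wsq_monotoneOn (h : RadialData m l f f' c c' c'') :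
    MonotoneOn (fun r => c r ^ 2 / r ^ (2 * l)) (Ioi 0) := by
  have hd : ∀ r, 0 < r → HasDerivAt (fun r => c r ^ 2 / r ^ (2 * l))
      ((2 * c r * c' r * r ^ (2 * l) - c r ^ 2 * ((2 * l : ℕ) * r ^ (2 * l - 1))) / (r ^ (2 * l)) ^ 2) r := by
    intro r hr
    have h1 := (h.hc r hr).pow 2
    have h2 := hasDerivAt_pow (2 * l) r
    have h3 := h1.div h2 (by positivity)
    have h6 := h3.congr_of_eventuallyEq (f₁ := fun r => c r ^ 2 / r ^ (2 * l))
      (Eventually.of_forall (fun s => by simp))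
    refine h6.congr_deriv ?_
    simp only [Pi.pow_apply]
    ring
  apply monotoneOn_of_deriv_nonneg (convex_Ioi 0)
  · intro r hr
    exact (hd r hr).continuousAt.continuousWithinAt
  · intro r hr
    rw [interior_Ioi] at hr
    exact (hd r hr).differentiableAt.differentiableWithinAt
  · intro r hr
    rw [interior_Ioi] at hr
    rw [(hd r hr).deriv]
    have hz := zfun_nonneg h hr
    have hf := h.fpos r hr
    have hz' : 0 ≤ c r * (c' r - l * c r / r) := by
      unfold zfun at hz
      exact nonneg_of_mul_nonneg_right hz (by positivity)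
    apply div_nonneg _ (by positivity)
    rcases Nat.eq_zero_or_pos l with hl | hl
    · subst hl
      simp at hz' ⊢
      linarith
    · have e : r ^ (2 * l) = r ^ (2 * l - 1) * r := by
        rw [← pow_succ]; congr 1; omega
      have : 2 * c r * c' r * r ^ (2 * l) - c r ^ 2 * ((2 * l : ℕ) * r ^ (2 * l - 1))
          = 2 * r ^ (2 * l) * (c r * (c' r - l * c r / r)) := by
        rw [e]
        push_cast
        have hr' : r ≠ 0 := ne_of_gt hr
        field_simp
      rw [this]
      have hp : 0 < r ^ (2 * l) := pow_pos hr _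
      exact mul_nonneg (by linarith) hz'

/-- A regular solution that vanishes at `r1` vanishes on `(0, r1]`. -/
lemma radial_vanish_left (h : RadialData m l f f' c c' c'') {r1 : ℝ} (hr1 : 0 < r1)
    (h0 : c r1 = 0) {r : ℝ} (hr : 0 < r) (hrr : r ≤ r1) : c r = 0 := by
  have hm := wsq_monotoneOn h (mem_Ioi.mpr hr) (mem_Ioi.mpr hr1) hrr
  simp only [h0] at hm
  have hp : 0 < r ^ (2 * l) := pow_pos hr _
  have h1 : c r ^ 2 / r ^ (2 * l) ≤ 0 := by simpa using hm
  have h2 : 0 ≤ c r ^ 2 / r ^ (2 * l) := by positivity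
  have h3 : c r ^ 2 / r ^ (2 * l) = 0 := le_antisymm h1 h2
  rcases div_eq_zero_iff.mp h3 with h4 | h4
  · exact pow_eq_zero_iff (by norm_num) |>.mp h4
  · exact absurd h4 hp.ne'

/-- A regular solution of the mode-`l` equation that grows at most like `r^k` with `k < l`
vanishes identically. -/
lemma radial_vanish_of_growth (h : RadialData m l f f' c c' c'') {k : ℕ} (hkl : k < l)
    {C : ℝ} (hC : ∀ r, 0 < r → |c r| ≤ C * (1 + r) ^ k) {r0 : ℝ} (hr0 : 0 < r0) : c r0 = 0 := by
  by_contra hne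
  have hp0 : 0 < r0 ^ (2 * l) := pow_pos hr0 _
  set δ := c r0 ^ 2 / r0 ^ (2 * l) with hδ
  have hδ0 : 0 < δ := by
    have : 0 < c r0 ^ 2 := by positivity
    positivity
  set M := C ^ 2 * 4 ^ k with hM
  have hM0 : 0 ≤ M := by positivity
  set r := max r0 1 + M / δ + 1 with hr
  have hr1 : 1 ≤ r := by
    have : 1 ≤ max r0 1 := le_max_right _ _
    have : 0 ≤ M / δ := by positivity
    linarith
  have hrr0 : r0 ≤ r := by
    have : r0 ≤ max r0 1 := le_max_left _ _
    have : 0 ≤ M / δ := by positivity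
    linarith
  have hrpos : 0 < r := by linarith
  have hm := wsq_monotoneOn h (mem_Ioi.mpr hr0) (mem_Ioi.mpr hrpos) hrr0
  simp only at hm
  have hp : 0 < r ^ (2 * l) := pow_pos hrpos _
  -- upper bound for c r ^ 2
  have hc := hC r hrpos
  have h1 : c r ^ 2 ≤ (C * (1 + r) ^ k) ^ 2 := by
    rw [← sq_abs (c r)]
    exact pow_le_pow_left₀ (abs_nonneg _) hc 2
  have h2 : (1 + r) ^ k ≤ (2 * r) ^ k := pow_le_pow_left₀ (by linarith) (by linarith) k
  have h3 : (C * (1 + r) ^ k) ^ 2 ≤ M * r ^ (2 * k) := by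
    have e : M * r ^ (2 * k) = C ^ 2 * ((2 * r) ^ k) ^ 2 := by
      have e4 : ((2 * r) ^ k) ^ 2 = 4 ^ k * r ^ (2 * k) := by
        rw [← pow_mul, mul_comm k 2, mul_pow, pow_mul]; norm_num
      rw [hM, e4]; ring
    rw [e, mul_pow]
    apply mul_le_mul_of_nonneg_left _ (by positivity)
    exact pow_le_pow_left₀ (by positivity) h2 2
  have h4 : r ^ (2 * k) * r ^ 2 ≤ r ^ (2 * l) := by
    rw [← pow_add]
    exact pow_le_pow_right₀ hr1 (by omega)
  have h5 : δ * r ^ (2 * l) ≤ c r ^ 2 := by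
    have := hm
    rwa [le_div_iff₀ hp] at this
  have h6 : δ * (r ^ (2 * k) * r ^ 2) ≤ M * r ^ (2 * k) := by
    calc δ * (r ^ (2 * k) * r ^ 2) ≤ δ * r ^ (2 * l) := mul_le_mul_of_nonneg_left h4 hδ0.le
      _ ≤ c r ^ 2 := h5
      _ ≤ (C * (1 + r) ^ k) ^ 2 := h1
      _ ≤ M * r ^ (2 * k) := h3
  have hpk : 0 < r ^ (2 * k) := pow_pos hrpos _
  have h7 : δ * r ^ 2 ≤ M := by
    have : (δ * r ^ 2) * r ^ (2 * k) ≤ M * r ^ (2 * k) := by linarith [h6]
    exact le_of_mul_le_mul_right this hpk
  have h8 : M / δ < r := by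
    have : 0 < max r0 1 := lt_of_lt_of_le one_pos (le_max_right _ _)
    linarith
  have h9 : M < δ * r := by
    rw [div_lt_iff₀ hδ0] at h8
    linarith
  have h10 : δ * r ≤ δ * r ^ 2 := by
    apply mul_le_mul_of_nonneg_left _ hδ0.le
    nlinarith
  linarith

/-- Forward uniqueness: a solution with zero Cauchy data at `r1` vanishes on `[r1, ∞)`. -/
lemma radial_unique (h : RadialData m l f f' c c' c'') (hf'c : ContinuousOn f' (Ioi 0))
    {r1 : ℝ} (hr1 : 0 < r1) (h0 : c r1 = 0) (h0' : c' r1 = 0) {r : ℝ} (hr : r1 ≤ r) :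
    c r = 0 := by
  -- bounds for the coefficients on [r1, r]
  have hfc : ContinuousOn f (Icc r1 r) := fun s hs =>
    (h.hf s (lt_of_lt_of_le hr1 hs.1)).continuousAt.continuousWithinAt
  have hf'c' : ContinuousOn f' (Icc r1 r) :=
    hf'c.mono (fun s hs => mem_Ioi.mpr (lt_of_lt_of_le hr1 hs.1))
  have ha : ContinuousOn (fun s => ((m : ℝ) + 2) * (f' s / f s)) (Icc r1 r) := by
    apply ContinuousOn.mul continuousOn_const
    apply hf'c'.div hfc
    intro s hs
    exact (h.fpos s (lt_of_lt_of_le hr1 hs.1)).ne'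
  have hb : ContinuousOn (fun s => (l : ℝ) * (l + m + 1) / (f s) ^ 2) (Icc r1 r) := by
    apply ContinuousOn.div continuousOn_const (hfc.pow 2)
    intro s hs
    exact (pow_pos (h.fpos s (lt_of_lt_of_le hr1 hs.1)) 2).ne'
  obtain ⟨A, hA⟩ := isCompact_Icc.exists_bound_of_continuousOn ha
  obtain ⟨Bb, hBb⟩ := isCompact_Icc.exists_bound_of_continuousOn hb
  set K := 1 + Bb + 2 * A with hK
  -- energy
  set E : ℝ → ℝ := fun s => (c s ^ 2 + c' s ^ 2) * Real.exp (-K * s) with hE
  have hEd : ∀ s, 0 < s → HasDerivAt E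
      ((2 * c s * c' s + 2 * c' s * c'' s) * Real.exp (-K * s)
        + (c s ^ 2 + c' s ^ 2) * (Real.exp (-K * s) * (-K))) s := by
    intro s hs
    have h1 := (h.hc s hs).pow 2
    have h2 := (h.hc' s hs).pow 2
    have h3 : HasDerivAt (fun s => Real.exp (-K * s)) (Real.exp (-K * s) * (-K)) s := by
      have := ((hasDerivAt_id s).const_mul (-K)).exp
      simpa using this
    have h4 := (h1.add h2).mul h3
    refine (h4.congr_of_eventuallyEq (f₁ := E) (Eventually.of_forall (fun s => by simp [hE]))).congr_deriv ?_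
    simp only [Pi.pow_apply, Pi.add_apply]
    ring
  have hanti : AntitoneOn E (Icc r1 r) := by
    apply antitoneOn_of_deriv_nonpos (convex_Icc r1 r)
    · intro s hs
      exact (hEd s (lt_of_lt_of_le hr1 hs.1)).continuousAt.continuousWithinAt
    · intro s hs
      rw [interior_Icc] at hs
      exact (hEd s (lt_trans hr1 hs.1)).differentiableAt.differentiableWithinAt
    · intro s hs
      rw [interior_Icc] at hs
      have hs0 : 0 < s := lt_trans hr1 hs.1
      have hsI : s ∈ Icc r1 r := ⟨hs.1.le, hs.2.le⟩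
      rw [(hEd s hs0).deriv]
      have hode := h.ode s hs0
      have hc'' : c'' s = -(((m : ℝ) + 2) * (f' s / f s) * c' s)
          + (l : ℝ) * (l + m + 1) / (f s) ^ 2 * c s := by
        have : (l : ℝ) * (l + m + 1) * c s / (f s) ^ 2 = (l : ℝ) * (l + m + 1) / (f s) ^ 2 * c s := by
          ring
        linarith
      have hAs := hA s hsI
      have hBs := hBb s hsI
      rw [Real.norm_eq_abs] at hAs hBs
      set a := ((m : ℝ) + 2) * (f' s / f s) with ha_def
      set b := (l : ℝ) * (l + m + 1) / (f s) ^ 2 with hb_def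
      have hexp : 0 < Real.exp (-K * s) := Real.exp_pos _
      have key : 2 * c s * c' s + 2 * c' s * c'' s ≤ K * (c s ^ 2 + c' s ^ 2) := by
        rw [hc'']
        have e1 : 2 * c s * c' s ≤ c s ^ 2 + c' s ^ 2 := by nlinarith [sq_nonneg (c s - c' s)]
        have e2 : 2 * c' s * (b * c s) ≤ Bb * (c s ^ 2 + c' s ^ 2) := by
          have hb1 : b ≤ Bb := le_trans (le_abs_self _) hBs
          have hb2 : -Bb ≤ b := by linarith [neg_abs_le b]
          have hBb0 : 0 ≤ Bb := le_trans (abs_nonneg _) hBs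
          nlinarith [sq_nonneg (c s - c' s), sq_nonneg (c s + c' s), sq_nonneg (c s), sq_nonneg (c' s)]
        have e3 : 2 * c' s * (-(a * c' s)) ≤ 2 * A * (c s ^ 2 + c' s ^ 2) := by
          have ha1 : -A ≤ a := by linarith [neg_abs_le a]
          have hA0 : 0 ≤ A := le_trans (abs_nonneg _) hAs
          nlinarith [sq_nonneg (c s), sq_nonneg (c' s)]
        have : 2 * c s * c' s + 2 * c' s * (-(a * c' s) + b * c s)
            = 2 * c s * c' s + 2 * c' s * (-(a * c' s)) + 2 * c' s * (b * c s) := by ring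
        rw [this, hK]
        nlinarith
      have : (2 * c s * c' s + 2 * c' s * c'' s) * Real.exp (-K * s)
          + (c s ^ 2 + c' s ^ 2) * (Real.exp (-K * s) * (-K))
          = (2 * c s * c' s + 2 * c' s * c'' s - K * (c s ^ 2 + c' s ^ 2)) * Real.exp (-K * s) := by
        ring
      rw [this]
      exact mul_nonpos_of_nonpos_of_nonneg (by linarith) hexp.le
  have hE1 : E r1 = 0 := by simp [hE, h0, h0']
  have hEr : E r ≤ 0 := by
    have := hanti (left_mem_Icc.mpr hr) (right_mem_Icc.mpr hr) hr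
    rwa [hE1] at this
  have hexp : 0 < Real.exp (-K * r) := Real.exp_pos _
  have hsum : c r ^ 2 + c' r ^ 2 ≤ 0 := by
    by_contra hcon
    rw [not_le] at hcon
    have : 0 < E r := mul_pos hcon hexp
    linarith
  nlinarith [sq_nonneg (c r), sq_nonneg (c' r)]

end Vale.Agent.Lib.P225
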