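import Vale.Agent.Lib.P225.Defs
import Vale.Agent.Lib.P225.PolyFun
import Vale.Agent.Lib.P225.Radial

namespace Vale.Agent.Lib.P225

open MeasureTheory Set Filter Topology MvPolynomial

variable {n : ℕ}

/-- The coefficient of `u` on the sphere of radius `r` against the polynomial `Y`. -/
noncomputable def cfun (u : EE n → ℝ) (Y : MvPolynomial (Fin n) ℝ) (r : ℝ) : ℝ :=
  sphMean (fun y => u (r • y) * pf Y y)

/-- The radial derivative of `cfun`. -/
noncomputable def cfun1 (u : EE n → ℝ) (Y : MvPolynomial (Fin n) ℝ) (r : ℝ) : ℝ :=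
  sphMean (fun y => fderiv ℝ u (r • y) y * pf Y y)

/-- The second radial derivative of `cfun`. -/
noncomputable def cfun2 (u : EE n → ℝ) (Y : MvPolynomial (Fin n) ℝ) (r : ℝ) : ℝ :=
  sphMean (fun y => fderiv ℝ (fderiv ℝ u) (r • y) y y * pf Y y)

lemma hasDerivAt_sphMean {F F' : ℝ → EE n → ℝ} {r : ℝ}
    (hF : ∀ t ∈ Ioo (r - 1) (r + 1), ContinuousOn (F t) (Metric.sphere 0 1))
    (hF' : ContinuousOn (F' r) (Metric.sphere 0 1))
    (hd : ∀ y, ‖y‖ = 1 → ∀ t ∈ Ioo (r - 1) (r + 1), HasDerivAt (fun s => F s y) (F' t y) t)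
    (M : ℝ) (hM : ∀ y, ‖y‖ = 1 → ∀ t ∈ Ioo (r - 1) (r + 1), |F' t y| ≤ M) :
    HasDerivAt (fun t => sphMean (F t)) (sphMean (F' r)) r :=
  hasDerivAt_setIntegral_compact isCompact_ann (F := fun t x => F t (nu x))
    (F' := fun t x => F' t (nu x)) (a := r - 1) (b := r + 1) ⟨by linarith, by linarith⟩
    (fun t ht => continuousOn_comp_nu (hF t ht)) (continuousOn_comp_nu hF')
    (fun x hx t ht => hd _ (norm_nu_of_mem_ann hx) t ht) M
    (fun x hx t ht => hM _ (norm_nu_of_mem_ann hx) t ht)

lemma hasDerivAt_smul_vec (y : EE n) (t : ℝ) : HasDerivAt (fun s : ℝ => s • y) y t := by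
  simpa using (hasDerivAt_id t).smul_const y

lemma norm_smul_le_of_mem {r t : ℝ} (ht : t ∈ Ioo (r - 1) (r + 1)) {y : EE n} (hy : ‖y‖ = 1) :
    t • y ∈ Metric.closedBall (0 : EE n) (|r| + 1) := by
  rw [mem_closedBall_zero_iff, norm_smul, hy, mul_one, Real.norm_eq_abs]
  have h1 := ht.1
  have h2 := ht.2
  have : |t - r| ≤ 1 := abs_le.mpr ⟨by linarith, by linarith⟩
  calc |t| = |(t - r) + r| := by ring_nf
    _ ≤ |t - r| + |r| := abs_add_le _ _
    _ ≤ |r| + 1 := by linarith

lemma hasDerivAt_cfun {u : EE n → ℝ} (hu : ContDiff ℝ 2 u) (Y : MvPolynomial (Fin n) ℝ) (r : ℝ) :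
    HasDerivAt (cfun u Y) (cfun1 u Y r) r := by
  have hud : Differentiable ℝ u := hu.differentiable (by norm_num)
  have hu' : Continuous (fderiv ℝ u) := hu.continuous_fderiv (by norm_num)
  have hY : Continuous (pf Y) := (contDiff_pf Y 0).continuous
  obtain ⟨M1, hM1⟩ := (isCompact_closedBall (0 : EE n) (|r| + 1)).exists_bound_of_continuousOn
    hu'.continuousOn
  obtain ⟨M2, hM2⟩ := (isCompact_sphere (0 : EE n) 1).exists_bound_of_continuousOn
    hY.continuousOn
  apply hasDerivAt_sphMean (F := fun t y => u (t • y) * pf Y y)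
    (F' := fun t y => fderiv ℝ u (t • y) y * pf Y y) (M := M1 * M2)
  · intro t _
    have hs : Continuous (fun y : EE n => t • y) := continuous_const_smul t
    have : Continuous (fun y => u (t • y) * pf Y y) := (hu.continuous.comp hs).mul hY
    exact this.continuousOn
  · have hs : Continuous (fun y : EE n => r • y) := continuous_const_smul r
    have : Continuous (fun y => fderiv ℝ u (r • y) y * pf Y y) :=
      ((hu'.comp hs).clm_apply continuous_id).mul hY
    exact this.continuousOn
  · intro y _ t _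
    exact ((hud (t • y)).hasFDerivAt.comp_hasDerivAt t (hasDerivAt_smul_vec y t)).mul_const _
  · intro y hy t ht
    have h1 : ‖fderiv ℝ u (t • y)‖ ≤ M1 := hM1 _ (norm_smul_le_of_mem ht hy)
    have h2 : |pf Y y| ≤ M2 := by
      simpa [Real.norm_eq_abs] using hM2 y (by simpa using hy)
    have h3 : |fderiv ℝ u (t • y) y| ≤ M1 := by
      have := (fderiv ℝ u (t • y)).le_opNorm y
      rw [hy, mul_one, Real.norm_eq_abs] at this
      linarith
    rw [abs_mul]
    exact mul_le_mul h3 h2 (abs_nonneg _) (le_trans (abs_nonneg _) h3)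

lemma hasDerivAt_cfun1 {u : EE n → ℝ} (hu : ContDiff ℝ 2 u) (Y : MvPolynomial (Fin n) ℝ) (r : ℝ) :
    HasDerivAt (cfun1 u Y) (cfun2 u Y r) r := by
  have hu' : Continuous (fderiv ℝ u) := hu.continuous_fderiv (by norm_num)
  have hu1 : ContDiff ℝ 1 (fderiv ℝ u) := hu.fderiv_right (m := 1) (by norm_num)
  have hu1d : Differentiable ℝ (fderiv ℝ u) := hu1.differentiable (by norm_num)
  have hu'' : Continuous (fderiv ℝ (fderiv ℝ u)) := hu1.continuous_fderiv (by norm_num)
  have hY : Continuous (pf Y) := (contDiff_pf Y 0).continuous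
  have hc : Continuous (fun p : EE n × EE n => fderiv ℝ (fderiv ℝ u) p.1 p.2 p.2) :=
    ((hu''.comp continuous_fst).clm_apply continuous_snd).clm_apply continuous_snd
  obtain ⟨M1, hM1⟩ := ((isCompact_closedBall (0 : EE n) (|r| + 1)).prod
    (isCompact_sphere (0 : EE n) 1)).exists_bound_of_continuousOn hc.continuousOn
  obtain ⟨M2, hM2⟩ := (isCompact_sphere (0 : EE n) 1).exists_bound_of_continuousOn
    hY.continuousOn
  apply hasDerivAt_sphMean (F := fun t y => fderiv ℝ u (t • y) y * pf Y y)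
    (F' := fun t y => fderiv ℝ (fderiv ℝ u) (t • y) y y * pf Y y) (M := M1 * M2)
  · intro t _
    have hs : Continuous (fun y : EE n => t • y) := continuous_const_smul t
    have : Continuous (fun y => fderiv ℝ u (t • y) y * pf Y y) :=
      ((hu'.comp hs).clm_apply continuous_id).mul hY
    exact this.continuousOn
  · have hs : Continuous (fun y : EE n => r • y) := continuous_const_smul r
    have : Continuous (fun y => fderiv ℝ (fderiv ℝ u) (r • y) y y * pf Y y) :=
      (((hu''.comp hs).clm_apply continuous_id).clm_apply continuous_id).mul hY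
    exact this.continuousOn
  · intro y _ t _
    have h1 := (hu1d (t • y)).hasFDerivAt.comp_hasDerivAt t (hasDerivAt_smul_vec y t)
    have h2 := h1.clm_apply (hasDerivAt_const t y)
    simp only [map_zero, add_zero] at h2
    exact h2.mul_const _
  · intro y hy t ht
    have h2 : |pf Y y| ≤ M2 := by
      simpa [Real.norm_eq_abs] using hM2 y (by simpa using hy)
    have h3 : |fderiv ℝ (fderiv ℝ u) (t • y) y y| ≤ M1 := by
      have := hM1 (t • y, y) ⟨norm_smul_le_of_mem ht hy, by simpa using hy⟩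
      simpa [Real.norm_eq_abs] using this
    rw [abs_mul]
    exact mul_le_mul h3 h2 (abs_nonneg _) (le_trans (abs_nonneg _) h3)

lemma scale_fderiv {u : EE n → ℝ} (hu : ContDiff ℝ 2 u) (r : ℝ) (y : EE n) :
    fderiv ℝ (fun z => u (r • z)) y = r • fderiv ℝ u (r • y) := by
  have hud : Differentiable ℝ u := hu.differentiable (by norm_num)
  have h1 : HasFDerivAt (fun z : EE n => r • z) (r • ContinuousLinearMap.id ℝ (EE n)) y :=
    (hasFDerivAt_id y).const_smul r
  have h2 := (hud (r • y)).hasFDerivAt.comp y h1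
  have h3 : (fun z => u (r • z)) = u ∘ (fun z : EE n => r • z) := rfl
  rw [h3, h2.fderiv]
  ext h
  simp

lemma scale_fderiv2 {u : EE n → ℝ} (hu : ContDiff ℝ 2 u) (r : ℝ) (y h h' : EE n) :
    fderiv ℝ (fderiv ℝ (fun z => u (r • z))) y h h'
      = r ^ 2 * fderiv ℝ (fderiv ℝ u) (r • y) h h' := by
  have e : fderiv ℝ (fun z => u (r • z)) = fun y => r • fderiv ℝ u (r • y) :=
    funext (scale_fderiv hu r)
  rw [e]
  have hu1 : ContDiff ℝ 1 (fderiv ℝ u) := hu.fderiv_right (m := 1) (by norm_num)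
  have hu1d : Differentiable ℝ (fderiv ℝ u) := hu1.differentiable (by norm_num)
  have h1 : HasFDerivAt (fun z : EE n => r • z) (r • ContinuousLinearMap.id ℝ (EE n)) y :=
    (hasFDerivAt_id y).const_smul r
  have h2 := ((hu1d (r • y)).hasFDerivAt.comp y h1).const_smul r
  have h3 : (fun y => r • fderiv ℝ u (r • y)) = r • (fderiv ℝ u ∘ fun z : EE n => r • z) := rfl
  rw [h3, h2.fderiv]
  simp
  ring

open Laplacian in
lemma scale_laplacian {u : EE n → ℝ} (hu : ContDiff ℝ 2 u) (r : ℝ) (y : EE n) :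
    Δ (fun z => u (r • z)) y = r ^ 2 * Δ u (r • y) := by
  rw [InnerProductSpace.laplacian_eq_iteratedFDeriv_orthonormalBasis _
      (EuclideanSpace.basisFun (Fin n) ℝ),
    InnerProductSpace.laplacian_eq_iteratedFDeriv_orthonormalBasis u
      (EuclideanSpace.basisFun (Fin n) ℝ)]
  simp only [iteratedFDeriv_two_apply, Matrix.cons_val_zero, Matrix.cons_val_one,
    scale_fderiv2 hu, Finset.mul_sum]

open Laplacian in
/-- On the unit sphere, the spherical Laplacian of `y ↦ u (r y)` is determined by the radial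
derivatives of `u` when `u` is harmonic for the rotationally symmetric metric. -/
lemma Lam_scale_of_harmonic {f : ℝ → ℝ} {u : EE n → ℝ} (hu : ContDiff ℝ 2 u)
    (hharm : ∀ x, x ≠ 0 → rotLaplacian n f u x = 0) {r : ℝ} (hr : 0 < r) (hfr : 0 < f r)
    {y : EE n} (hy : ‖y‖ = 1) :
    Lam (fun z => u (r • z)) y = -(f r) ^ 2 * (fderiv ℝ (fderiv ℝ u) (r • y) y y
      + ((n : ℝ) - 1) * (deriv f r / f r) * fderiv ℝ u (r • y) y) := by
  have hy0 : y ≠ 0 := by
    intro h; rw [h, norm_zero] at hy; exact zero_ne_one hy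
  have hx0 : r • y ≠ 0 := smul_ne_zero hr.ne' hy0
  have hnorm : ‖r • y‖ = r := by rw [norm_smul, hy, mul_one, Real.norm_eq_abs, abs_of_pos hr]
  have h := hharm (r • y) hx0
  unfold rotLaplacian at h
  simp only [hnorm, iteratedFDeriv_two_apply, Matrix.cons_val_zero, Matrix.cons_val_one,
    map_smul, smul_eq_mul, smul_apply] at h
  unfold Lam
  rw [scale_laplacian hu, scale_fderiv2 hu, scale_fderiv hu, hy]
  simp only [smul_apply, smul_eq_mul]
  set A := Δ u (r • y)
  set b := fderiv ℝ (fderiv ℝ u) (r • y) y y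
  set c := fderiv ℝ u (r • y) y
  have hr' : r ≠ 0 := hr.ne'
  have hf' : f r ≠ 0 := hfr.ne'
  field_simp at h ⊢
  linarith

lemma continuous_term0 {u : EE n → ℝ} (hu : ContDiff ℝ 2 u) (Y : MvPolynomial (Fin n) ℝ)
    (r : ℝ) : Continuous (fun y => u (r • y) * pf Y y) := by
  have hs : Continuous (fun y : EE n => r • y) := continuous_const_smul r
  exact (hu.continuous.comp hs).mul (contDiff_pf Y 0).continuous

lemma continuous_term1 {u : EE n → ℝ} (hu : ContDiff ℝ 2 u) (Y : MvPolynomial (Fin n) ℝ)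
    (r : ℝ) : Continuous (fun y => fderiv ℝ u (r • y) y * pf Y y) := by
  have hs : Continuous (fun y : EE n => r • y) := continuous_const_smul r
  have hu' : Continuous (fderiv ℝ u) := hu.continuous_fderiv (by norm_num)
  exact ((hu'.comp hs).clm_apply continuous_id).mul (contDiff_pf Y 0).continuous

lemma continuous_term2 {u : EE n → ℝ} (hu : ContDiff ℝ 2 u) (Y : MvPolynomial (Fin n) ℝ)
    (r : ℝ) : Continuous (fun y => fderiv ℝ (fderiv ℝ u) (r • y) y y * pf Y y) := by
  have hs : Continuous (fun y : EE n => r • y) := continuous_const_smul r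
  have hu1 : ContDiff ℝ 1 (fderiv ℝ u) := hu.fderiv_right (m := 1) (by norm_num)
  have hu'' : Continuous (fderiv ℝ (fderiv ℝ u)) := hu1.continuous_fderiv (by norm_num)
  exact (((hu''.comp hs).clm_apply continuous_id).clm_apply continuous_id).mul
    (contDiff_pf Y 0).continuous

/-- The radial equation satisfied by the coefficient of a harmonic function against a
homogeneous harmonic polynomial of degree `l`. -/
lemma cfun_ode {f : ℝ → ℝ} {u : EE n → ℝ} (hu : ContDiff ℝ 2 u)
    (hharm : ∀ x, x ≠ 0 → rotLaplacian n f u x = 0) {Y : MvPolynomial (Fin n) ℝ} {l : ℕ}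
    (hY : Y ∈ harmSub n l) {r : ℝ} (hr : 0 < r) (hfr : 0 < f r) :
    cfun2 u Y r + ((n : ℝ) - 1) * (deriv f r / f r) * cfun1 u Y r
      - (l : ℝ) * ((l : ℝ) + n - 2) * cfun u Y r / (f r) ^ 2 = 0 := by
  have hV : ContDiff ℝ 2 (fun z : EE n => u (r • z)) :=
    hu.comp (contDiff_const_smul r)
  have h1 := sphMean_Lam_symm hV (contDiff_pf Y 2)
  have hR : sphMean (fun y => u (r • y) * Lam (pf Y) y)
      = -((l : ℝ) * ((l : ℝ) + n - 2)) * cfun u Y r := by
    unfold cfun
    rw [← sphMean_const_mul]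
    apply sphMean_congr
    intro y _
    rw [Lam_pf hY]
    ring
  have hL : sphMean (fun y => Lam (fun z => u (r • z)) y * pf Y y)
      = -(f r) ^ 2 * (cfun2 u Y r + ((n : ℝ) - 1) * (deriv f r / f r) * cfun1 u Y r) := by
    unfold cfun2 cfun1
    rw [← sphMean_const_mul (((n : ℝ) - 1) * (deriv f r / f r)),
      ← sphMean_add (continuous_term2 hu Y r).continuousOn
        ((continuous_term1 hu Y r).const_mul _).continuousOn,
      ← sphMean_const_mul]
    apply sphMean_congr
    intro y hy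
    rw [Lam_scale_of_harmonic hu hharm hr hfr hy]
    ring
  rw [hL, hR] at h1
  have hf' : f r ≠ 0 := hfr.ne'
  field_simp at h1 ⊢
  linarith

lemma cfun_bdd {u : EE n → ℝ} (hu : ContDiff ℝ 2 u) (Y : MvPolynomial (Fin n) ℝ) :
    ∃ B, ∀ r, 0 < r → r ≤ 1 → |cfun u Y r| ≤ B ∧ |cfun1 u Y r| ≤ B := by
  have hu' : Continuous (fderiv ℝ u) := hu.continuous_fderiv (by norm_num)
  have hY : Continuous (pf Y) := (contDiff_pf Y 0).continuous
  obtain ⟨M0, hM0⟩ := (isCompact_closedBall (0 : EE n) 1).exists_bound_of_continuousOn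
    hu.continuous.continuousOn
  obtain ⟨M1, hM1⟩ := (isCompact_closedBall (0 : EE n) 1).exists_bound_of_continuousOn
    hu'.continuousOn
  obtain ⟨M2, hM2⟩ := (isCompact_sphere (0 : EE n) 1).exists_bound_of_continuousOn
    hY.continuousOn
  set vol := (volume : Measure (EE n)).real (ann n) with hvol
  have hvol0 : 0 ≤ vol := measureReal_nonneg
  refine ⟨(|M0| + |M1|) * |M2| * vol, fun r hr0 hr1 => ?_⟩
  have hmem : ∀ y : EE n, ‖y‖ = 1 → r • y ∈ Metric.closedBall (0 : EE n) 1 := by
    intro y hy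
    rw [mem_closedBall_zero_iff, norm_smul, hy, mul_one, Real.norm_eq_abs, abs_of_pos hr0]
    exact hr1
  have hpY : ∀ y : EE n, ‖y‖ = 1 → |pf Y y| ≤ |M2| := by
    intro y hy
    have := hM2 y (by simpa using hy)
    rw [Real.norm_eq_abs] at this
    exact le_trans this (le_abs_self _)
  constructor
  · have h := abs_sphMean_le (G := fun y => u (r • y) * pf Y y) (M := (|M0| + |M1|) * |M2|)
      (fun y hy => by
        have h1 : |u (r • y)| ≤ |M0| := by
          have := hM0 _ (hmem y hy)
          rw [Real.norm_eq_abs] at this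
          exact le_trans this (le_abs_self _)
        rw [abs_mul]
        have h2 := hpY y hy
        have h3 : |u (r • y)| ≤ |M0| + |M1| := by linarith [abs_nonneg M1]
        exact mul_le_mul h3 h2 (abs_nonneg _) (by positivity))
    exact h
  · have h := abs_sphMean_le (G := fun y => fderiv ℝ u (r • y) y * pf Y y)
      (M := (|M0| + |M1|) * |M2|)
      (fun y hy => by
        have h1 : |fderiv ℝ u (r • y) y| ≤ |M1| := by
          have h4 := hM1 _ (hmem y hy)
          have h5 := (fderiv ℝ u (r • y)).le_opNorm y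
          rw [hy, mul_one, Real.norm_eq_abs] at h5
          exact le_trans h5 (le_trans h4 (le_abs_self _))
        rw [abs_mul]
        have h2 := hpY y hy
        have h3 : |fderiv ℝ u (r • y) y| ≤ |M0| + |M1| := by linarith [abs_nonneg M0]
        exact mul_le_mul h3 h2 (abs_nonneg _) (by positivity))
    exact h

lemma cfun_growth (u : EE n → ℝ) (Y : MvPolynomial (Fin n) ℝ) {k : ℕ}
    {C : ℝ} (hC : ∀ x, |u x| ≤ C * (1 + ‖x‖) ^ k) :
    ∃ C', ∀ r, 0 < r → |cfun u Y r| ≤ C' * (1 + r) ^ k := by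
  have hY : Continuous (pf Y) := (contDiff_pf Y 0).continuous
  obtain ⟨M2, hM2⟩ := (isCompact_sphere (0 : EE n) 1).exists_bound_of_continuousOn
    hY.continuousOn
  set vol := (volume : Measure (EE n)).real (ann n) with hvol
  have hvol0 : 0 ≤ vol := measureReal_nonneg
  refine ⟨|C| * |M2| * vol, fun r hr0 => ?_⟩
  have h := abs_sphMean_le (G := fun y => u (r • y) * pf Y y) (M := |C| * (1 + r) ^ k * |M2|)
    (fun y hy => by
      have h1 : |u (r • y)| ≤ |C| * (1 + r) ^ k := by
        have := hC (r • y)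
        rw [norm_smul, hy, mul_one, Real.norm_eq_abs, abs_of_pos hr0] at this
        have hp : 0 ≤ (1 + r) ^ k := by positivity
        exact le_trans this (mul_le_mul_of_nonneg_right (le_abs_self _) hp)
      have h2 : |pf Y y| ≤ |M2| := by
        have := hM2 y (by simpa using hy)
        rw [Real.norm_eq_abs] at this
        exact le_trans this (le_abs_self _)
      rw [abs_mul]
      exact mul_le_mul h1 h2 (abs_nonneg _) (by positivity))
  calc |cfun u Y r| ≤ |C| * (1 + r) ^ k * |M2| * vol := h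
    _ = |C| * |M2| * vol * (1 + r) ^ k := by ring

end Vale.Agent.Lib.P225
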