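import Vale.Agent.Lib.P225.PolyFun

namespace Vale.Agent.Lib.P225

open MeasureTheory Set Filter Topology MvPolynomial

variable {n : ℕ}

/-- The coordinate function as a continuous map. -/
noncomputable def coordC (i : Fin n) : C(EE n, ℝ) :=
  ⟨fun y => y i, (EuclideanSpace.proj i : EE n →L[ℝ] ℝ).continuous⟩

/-- Polynomials as continuous functions on Euclidean space. -/
noncomputable def polyAlg (n : ℕ) : MvPolynomial (Fin n) ℝ →ₐ[ℝ] C(EE n, ℝ) :=
  MvPolynomial.aeval (fun i => coordC i)

lemma polyAlg_apply (P : MvPolynomial (Fin n) ℝ) (y : EE n) : polyAlg n P y = pf P y := by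
  induction P using MvPolynomial.induction_on with
  | C a => simp [polyAlg]
  | add p q hp hq => simp [hp, hq]
  | mul_X p j hp =>
    have h1 : polyAlg n (X j) y = y j := by
      simp only [polyAlg, aeval_X, coordC]
      rfl
    rw [map_mul, ContinuousMap.mul_apply, hp, h1]
    simp

lemma polyAlg_separates : (polyAlg n).range.SeparatesPoints := by
  intro x y hxy
  have : ∃ i, x i ≠ y i := by
    by_contra hcon
    rw [not_exists] at hcon
    apply hxy
    ext i
    have := hcon i
    rwa [not_not] at this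
  obtain ⟨i, hi⟩ := this
  refine ⟨fun z => z i, ⟨polyAlg n (X i), ⟨X i, rfl⟩, ?_⟩, hi⟩
  funext z
  simp [polyAlg_apply]

/-- Polynomials are uniformly dense in the continuous functions on the unit sphere. -/
lemma exists_poly_near {g : EE n → ℝ} (hg : Continuous g) {ε : ℝ} (hε : 0 < ε) :
    ∃ P : MvPolynomial (Fin n) ℝ, ∀ y : EE n, ‖y‖ = 1 → |pf P y - g y| < ε := by
  obtain ⟨G, ⟨P, rfl⟩, hP⟩ :=
    ContinuousMap.exists_mem_subalgebra_near_continuous_of_isCompact_of_separatesPoints
      polyAlg_separates ⟨g, hg⟩ (isCompact_sphere (0 : EE n) 1) hε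
  refine ⟨P, fun y hy => ?_⟩
  have := hP y (by simpa using hy)
  simpa [polyAlg_apply, Real.norm_eq_abs] using this

lemma sphMean_sq_eq_zero {g : EE n → ℝ} (hg : Continuous g)
    (h : ∀ P : MvPolynomial (Fin n) ℝ, sphMean (fun y => g y * pf P y) = 0) :
    sphMean (fun y => g y * g y) = 0 := by
  have hnn : 0 ≤ sphMean (fun y => g y * g y) := sphMean_nonneg (fun y _ => mul_self_nonneg _)
  obtain ⟨M, hM⟩ := (isCompact_sphere (0 : EE n) 1).exists_bound_of_continuousOn
    hg.continuousOn
  set vol := (volume : Measure (EE n)).real (ann n) with hvol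
  have hvol0 : 0 ≤ vol := measureReal_nonneg
  have hM0 : ∀ y : EE n, ‖y‖ = 1 → |g y| ≤ |M| := by
    intro y hy
    have := hM y (by simpa using hy)
    rw [Real.norm_eq_abs] at this
    exact le_trans this (le_abs_self _)
  have key : ∀ ε : ℝ, 0 < ε → sphMean (fun y => g y * g y) ≤ ε * (|M| * vol) := by
    intro ε hε
    obtain ⟨P, hP⟩ := exists_poly_near hg hε
    have hsplit : sphMean (fun y => g y * g y)
        = sphMean (fun y => g y * (g y - pf P y)) + sphMean (fun y => g y * pf P y) := by
      rw [← sphMean_add]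
      · apply sphMean_congr
        intro y _
        ring
      · exact (hg.mul (hg.sub (contDiff_pf P 0).continuous)).continuousOn
      · exact (hg.mul (contDiff_pf P 0).continuous).continuousOn
    rw [hsplit, h P, add_zero]
    have hb := abs_sphMean_le (G := fun y => g y * (g y - pf P y)) (M := |M| * ε)
      (fun y hy => by
        rw [abs_mul]
        have h1 := hM0 y hy
        have h2 : |g y - pf P y| ≤ ε := by
          rw [abs_sub_comm]
          exact (hP y hy).le
        exact mul_le_mul h1 h2 (abs_nonneg _) (abs_nonneg _))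
    calc sphMean (fun y => g y * (g y - pf P y))
        ≤ |sphMean (fun y => g y * (g y - pf P y))| := le_abs_self _
      _ ≤ |M| * ε * vol := hb
      _ = ε * (|M| * vol) := by ring
  by_contra hne
  have hpos : 0 < sphMean (fun y => g y * g y) := lt_of_le_of_ne hnn (Ne.symm hne)
  set s := sphMean (fun y => g y * g y) with hs
  have hK : 0 ≤ |M| * vol := by positivity
  have h1 := key (s / (2 * (|M| * vol + 1))) (by positivity)
  have h2 : s / (2 * (|M| * vol + 1)) * (|M| * vol) ≤ s / 2 := by
    rw [div_mul_eq_mul_div, div_le_div_iff₀ (by positivity) (by norm_num)]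
    nlinarith
  linarith

/-- Completeness: a continuous function on the sphere orthogonal to all polynomials vanishes. -/
lemma sphere_complete {g : EE n → ℝ} (hg : Continuous g)
    (h : ∀ P : MvPolynomial (Fin n) ℝ, sphMean (fun y => g y * pf P y) = 0)
    {y0 : EE n} (hy0 : ‖y0‖ = 1) : g y0 = 0 := by
  have h0 := sphMean_sq_eq_zero hg h
  unfold sphMean at h0
  set O : Set (EE n) := {x | 1 < ‖x‖ ∧ ‖x‖ < 2} with hO
  have hOopen : IsOpen O := by
    have : O = (fun x : EE n => ‖x‖) ⁻¹' (Ioo 1 2) := by
      ext x; simp [hO]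
    rw [this]
    exact isOpen_Ioo.preimage continuous_norm
  have hOsub : O ⊆ ann n := fun x hx => ⟨hx.1.le, hx.2.le⟩
  have hcont : ContinuousOn (fun x => g (nu x)) (ann n) :=
    hg.comp_continuousOn continuousOn_nu
  have hint : IntegrableOn (fun x => g (nu x) * g (nu x)) (ann n) :=
    (hcont.mul hcont).integrableOn_compact isCompact_ann
  have hnn : ∀ x, 0 ≤ g (nu x) * g (nu x) := fun x => mul_self_nonneg _
  have hO0 : ∫ x in O, g (nu x) * g (nu x) = 0 := by
    apply le_antisymm
    · rw [← h0]
      exact setIntegral_mono_set hint (Eventually.of_forall hnn)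
        (Eventually.of_forall hOsub)
    · exact setIntegral_nonneg hOopen.measurableSet (fun x _ => hnn x)
  have hae := (setIntegral_eq_zero_iff_of_nonneg_ae (Eventually.of_forall hnn)
    (hint.mono_set hOsub)).mp hO0
  by_contra hne
  set U : Set (EE n) := O ∩ (fun x => g (nu x)) ⁻¹' {0}ᶜ with hU
  have hUopen : IsOpen U :=
    (hcont.mono hOsub).isOpen_inter_preimage hOopen isOpen_compl_singleton
  have hUnull : volume U = 0 := by
    have h2 : volume {x | ¬ (x ∈ O → (fun x => g (nu x) * g (nu x)) x = (0 : EE n → ℝ) x)} = 0 :=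
      ae_iff.mp ((ae_restrict_iff' hOopen.measurableSet).mp hae)
    apply measure_mono_null _ h2
    intro x hx
    simp only [Set.mem_ofPred_eq, Pi.zero_apply, mul_self_eq_zero, Classical.not_imp]
    exact ⟨hx.1, hx.2⟩
  have hUempty : U = ∅ := (hUopen.measure_eq_zero_iff volume).mp hUnull
  have hx0 : ((3 / 2 : ℝ) • y0) ∈ U := by
    have hn : ‖(3 / 2 : ℝ) • y0‖ = 3 / 2 := by
      rw [norm_smul, hy0, mul_one, Real.norm_eq_abs]; norm_num
    refine ⟨⟨by rw [hn]; norm_num, by rw [hn]; norm_num⟩, ?_⟩
    have hnu : nu ((3 / 2 : ℝ) • y0) = y0 := by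
      unfold nu
      rw [hn, smul_smul]
      norm_num
    simp only [mem_preimage, hnu, mem_compl_iff, mem_singleton_iff]
    exact hne
  rw [hUempty] at hx0
  exact hx0

end Vale.Agent.Lib.P225
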