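import Mathlib

namespace Vale.Agent.Lib.P225

open Laplacian

/-- The Laplace-Beltrami operator of the rotationally symmetric metric
`g = dr^2 + f(r)^2 g_S` on `ℝ^n` (polar coordinates `x = r θ`, `r = ‖x‖`, `g_S` the round
metric of the unit sphere), applied to `u` at a point `x ≠ 0` and written with Cartesian
derivatives: `Δ_g u = u_rr + (n - 1) (f'/f) u_r + f^(-2) Δ_S u`, where `u_r = Du(x)(x/r)`,
`u_rr = D²u(x)(x/r, x/r)` and the spherical part is `Δ_S u = r^2 (Δu - u_rr) - (n - 1) r u_r`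
(`Δ` the Euclidean Laplacian). For `f(r) = r` this is the Euclidean Laplacian. -/
noncomputable def rotLaplacian (n : ℕ) (f : ℝ → ℝ) (u : EuclideanSpace ℝ (Fin n) → ℝ)
    (x : EuclideanSpace ℝ (Fin n)) : ℝ :=
  let r := ‖x‖
  let ur := fderiv ℝ u x x / r
  let urr := iteratedFDeriv ℝ 2 u x ![x, x] / r ^ 2
  urr + ((n : ℝ) - 1) * (deriv f r / f r) * ur
    + (r ^ 2 * (Δ u x - urr) - ((n : ℝ) - 1) * r * ur) / (f r) ^ 2

end Vale.Agent.Lib.P225
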