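import Mathlib

namespace Vale.Agent.Lib.P225

open PowerSeries Finset

/-- Cauchy-Schwarz step: an index pair below the threshold lies strictly under the diagonal. -/
lemma diag_lt (a b i j k : ℕ) (hk : 1 ≤ k)
    (h : (a + b + 3) * ((b + 1) * (i * (i + a + 1)) + (a + 1) * (j * (j + b + 1)))
      ≤ (a + 1) * (b + 1) * (k * (k + a + b + 3))) : i + j < k := by
  by_contra hc
  rw [not_lt] at hc
  have hz : ((a : ℤ) + b + 3) * ((b + 1) * (i * (i + a + 1)) + (a + 1) * (j * (j + b + 1)))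
      ≤ (a + 1) * (b + 1) * (k * (k + a + b + 3)) := by exact_mod_cast h
  have hs : (k : ℤ) ≤ i + j := by exact_mod_cast hc
  have hk' : (1 : ℤ) ≤ k := by exact_mod_cast hk
  have ha : (0 : ℤ) ≤ a := by positivity
  have hb : (0 : ℤ) ≤ b := by positivity
  have hi : (0 : ℤ) ≤ i := by positivity
  have hj : (0 : ℤ) ≤ j := by positivity
  have h1 : (k : ℤ) * (k + a + b + 3) ≤ (i + j) * (i + j + a + b + 3) := by
    apply mul_le_mul hs (by linarith) (by positivity) (by positivity)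
  have h2 : ((a : ℤ) + 1) * (b + 1) * (k * (k + a + b + 3))
      ≤ (a + 1) * (b + 1) * ((i + j) * (i + j + a + b + 3)) := by
    apply mul_le_mul_of_nonneg_left h1 (by positivity)
  have h3 : 0 ≤ (((b : ℤ) + 1) * i - (a + 1) * j) ^ 2 := sq_nonneg _
  have h4 : (0 : ℤ) < (b + 1) * i ^ 2 + (a + 1) * j ^ 2 := by
    have : (1 : ℤ) ≤ i + j := by linarith
    rcases lt_or_ge (0 : ℤ) i with hi0 | hi0
    · have : (0 : ℤ) < (b + 1) * i ^ 2 := by positivity
      have : (0 : ℤ) ≤ (a + 1) * j ^ 2 := by positivity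
      linarith
    · have hj0 : (0 : ℤ) < j := by linarith
      have : (0 : ℤ) < (a + 1) * j ^ 2 := by positivity
      have : (0 : ℤ) ≤ (b + 1) * i ^ 2 := by positivity
      linarith
  nlinarith [h2, hz, h3, h4]

/-- The multiplicity sequence of the sphere, as an integer power series. -/
lemma sph_series (p : ℕ) (hp : 1 ≤ p) :
    (mk fun i => ((((p + i).choose p - (p + i - 2).choose p : ℕ)) : ℤ))
      = (1 - X ^ 2) * (mk 1 : ℤ⟦X⟧) ^ (p + 1) := by
  rw [mk_one_pow_eq_mk_choose_add]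
  ext i
  rw [sub_mul, one_mul, map_sub, coeff_mk, coeff_mk, coeff_X_pow_mul']
  by_cases hi : 2 ≤ i
  · rw [if_pos hi, coeff_mk]
    have h1 : (p + i - 2).choose p ≤ (p + i).choose p := Nat.choose_le_choose p (by omega)
    rw [Nat.cast_sub h1]
    have : p + (i - 2) = p + i - 2 := by omega
    rw [this]
  · rw [if_neg hi]
    have : (p + i - 2).choose p = 0 := Nat.choose_eq_zero_of_lt (by omega)
    rw [this]
    simp

lemma tri_sum_int (p q : ℕ) (hp : 1 ≤ p) (hq : 1 ≤ q) (K : ℕ) :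
    (∑ s ∈ range (K + 1), ∑ x ∈ antidiagonal s,
      ((((p + x.1).choose p - (p + x.1 - 2).choose p : ℕ)) : ℤ)
        * ((((q + x.2).choose q - (q + x.2 - 2).choose q : ℕ)) : ℤ))
      = coeff K ((1 + X) ^ 2 * (mk 1 : ℤ⟦X⟧) ^ (p + q + 1)) := by
  have hG : (1 - X) * (mk 1 : ℤ⟦X⟧) = 1 := by
    rw [mul_comm]; exact mk_one_mul_one_sub_eq_one ℤ
  have key : (mk fun i => ((((p + i).choose p - (p + i - 2).choose p : ℕ)) : ℤ))
      * (mk fun i => ((((q + i).choose q - (q + i - 2).choose q : ℕ)) : ℤ)) * (mk 1 : ℤ⟦X⟧)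
      = (1 + X) ^ 2 * (mk 1 : ℤ⟦X⟧) ^ (p + q + 1) := by
    rw [sph_series p hp, sph_series q hq]
    have : (1 - X ^ 2 : ℤ⟦X⟧) = (1 + X) * (1 - X) := by ring
    rw [this]
    calc (1 + X) * (1 - X) * (mk 1 : ℤ⟦X⟧) ^ (p + 1) * ((1 + X) * (1 - X) * (mk 1 : ℤ⟦X⟧) ^ (q + 1))
          * (mk 1 : ℤ⟦X⟧)
        = (1 + X) ^ 2 * ((1 - X) * (mk 1 : ℤ⟦X⟧)) ^ 2 * (mk 1 : ℤ⟦X⟧) ^ (p + q + 1) := by ring
      _ = (1 + X) ^ 2 * (mk 1 : ℤ⟦X⟧) ^ (p + q + 1) := by rw [hG]; ring
  rw [← key, coeff_mul, Nat.sum_antidiagonal_eq_sum_range_succ_mk]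
  apply Finset.sum_congr rfl
  intro s _
  rw [coeff_mk, Pi.one_apply, mul_one, coeff_mul]
  apply Finset.sum_congr rfl
  intro x _
  rw [coeff_mk, coeff_mk]

lemma coeff_expand (N K : ℕ) :
    coeff K ((1 + X) ^ 2 * (mk 1 : ℤ⟦X⟧) ^ (N + 1))
      = ((N + K).choose N : ℤ) + 2 * (if 1 ≤ K then ((N + (K - 1)).choose N : ℤ) else 0)
        + (if 2 ≤ K then ((N + (K - 2)).choose N : ℤ) else 0) := by
  rw [mk_one_pow_eq_mk_choose_add]
  have : ((1 + X) ^ 2 : ℤ⟦X⟧) = 1 + 2 * X ^ 1 + X ^ 2 := by ring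
  rw [this, add_mul, add_mul, one_mul, map_add, map_add, coeff_mk, mul_assoc, two_mul, map_add,
    coeff_X_pow_mul', coeff_X_pow_mul']
  split_ifs <;> simp [coeff_mk] <;> ring

lemma poly_ineq (N j : ℕ) (hN : 4 ≤ N) (h : 2 * j + 4 ≤ 3 * N) :
    (j + 2) * (j + 3) * (2 * N + 3 * j + 3) ≤ (N + j + 1) * (N + j + 2) * (N + j + 3) := by
  nlinarith [mul_nonneg (Nat.zero_le j) (Nat.zero_le N), mul_nonneg (Nat.zero_le j) (Nat.zero_le j),
    mul_nonneg (Nat.zero_le N) (Nat.zero_le N), Nat.mul_le_mul h h,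
    Nat.mul_le_mul_left N h, Nat.mul_le_mul_left j h, Nat.mul_le_mul_left (N * N) h,
    Nat.mul_le_mul_left (N * j) h, Nat.mul_le_mul_left (j * j) h]

lemma binom_core (N j : ℕ) (hN : 4 ≤ N) (h : 2 * j + 4 ≤ 3 * N) :
    2 * (N + j + 1).choose N + (N + j).choose N ≤ (N + j + 3).choose N := by
  have r1 := Nat.choose_mul_succ_eq (N + j + 2) N
  have r2 := Nat.choose_mul_succ_eq (N + j + 1) N
  have r3 := Nat.choose_mul_succ_eq (N + j) N
  have a1 : N + j + 2 + 1 - N = j + 3 := by omega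
  have a2 : N + j + 1 + 1 - N = j + 2 := by omega
  have a3 : N + j + 1 - N = j + 1 := by omega
  rw [a1] at r1
  rw [a2] at r2
  rw [a3] at r3
  have hp := poly_ineq N j hN h
  set y0 := (N + j + 3).choose N
  set y1 := (N + j + 2).choose N
  set y2 := (N + j + 1).choose N
  set y3 := (N + j).choose N
  have r1z : (y1 : ℤ) * (N + j + 2 + 1) = y0 * (j + 3) := by exact_mod_cast r1
  have r2z : (y2 : ℤ) * (N + j + 1 + 1) = y1 * (j + 2) := by exact_mod_cast r2
  have r3z : (y3 : ℤ) * (N + j + 1) = y2 * (j + 1) := by exact_mod_cast r3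
  have hpz : ((j : ℤ) + 2) * (j + 3) * (2 * N + 3 * j + 3)
      ≤ (N + j + 1) * (N + j + 2) * (N + j + 3) := by
    exact_mod_cast hp
  have key : ((y0 : ℤ) - 2 * y2 - y3) * ((j + 3) * (j + 2) * (N + j + 1))
      = y2 * ((N + j + 1) * (N + j + 2) * (N + j + 3) - (j + 2) * (j + 3) * (2 * N + 3 * j + 3)) := by
    linear_combination (-((j : ℤ) + 2) * (N + j + 1)) * r1z
      - (((N : ℤ) + j + 3) * (N + j + 1)) * r2z - (((j : ℤ) + 2) * (j + 3)) * r3z
  have hy2 : (0 : ℤ) ≤ y2 := by positivity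
  have hpos : (0 : ℤ) < (j + 3) * (j + 2) * (N + j + 1) := by positivity
  have : (0 : ℤ) ≤ ((y0 : ℤ) - 2 * y2 - y3) * ((j + 3) * (j + 2) * (N + j + 1)) := by
    rw [key]; exact mul_nonneg hy2 (by linarith)
  have h0 : (0 : ℤ) ≤ (y0 : ℤ) - 2 * y2 - y3 := nonneg_of_mul_nonneg_left this hpos
  have : (2 * y2 + y3 : ℤ) ≤ y0 := by linarith
  exact_mod_cast this

/-- Sum over the triangle, bounded by the Euclidean count. -/
lemma tri_le (p q k : ℕ) (hp : 2 ≤ p) (hq : 2 ≤ q) (hk : 1 ≤ k)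
    (hk2 : 2 * k + 1 ≤ 3 * (p + q + 1)) :
    (∑ s ∈ range k, ∑ x ∈ antidiagonal s,
      ((p + x.1).choose p - (p + x.1 - 2).choose p)
        * ((q + x.2).choose q - (q + x.2 - 2).choose q))
      ≤ (p + q + k).choose k + (p + q + k - 1).choose (k - 1) := by
  obtain ⟨K, rfl⟩ : ∃ K, k = K + 1 := ⟨k - 1, by omega⟩
  have h1 := tri_sum_int p q (by omega) (by omega) K
  rw [coeff_expand] at h1
  have e0 : (p + q + (K + 1)).choose (K + 1) = (p + q + K + 1).choose (p + q) := by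
    exact (Nat.choose_symm_add (a := p + q) (b := K + 1)).symm
  have e1 : (p + q + (K + 1) - 1).choose (K + 1 - 1) = (p + q + K).choose (p + q) := by
    have : p + q + (K + 1) - 1 = (p + q) + K := by omega
    rw [this, Nat.add_sub_cancel, Nat.choose_symm_add]
  rw [e0, e1]
  have goalz : ((∑ s ∈ range (K + 1), ∑ x ∈ antidiagonal s,
      ((p + x.1).choose p - (p + x.1 - 2).choose p)
        * ((q + x.2).choose q - (q + x.2 - 2).choose q) : ℕ) : ℤ)
      ≤ ((p + q + K + 1).choose (p + q) : ℤ) + ((p + q + K).choose (p + q) : ℤ) := by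
    push_cast at h1 ⊢
    rw [h1]
    rcases Nat.lt_or_ge K 1 with hK | hK
    · have : K = 0 := by omega
      subst this
      simp
      positivity
    rcases Nat.lt_or_ge K 2 with hK2 | hK2
    · have : K = 1 := by omega
      subst this
      simp only [le_refl, if_true, Nat.sub_self, add_zero, Nat.choose_self]
      have h2 : p + q + 2 ≤ (p + q + 1 + 1).choose (p + q) := by
        have e : (p + q + 1 + 1).choose (p + q) = (p + q + 2).choose 2 := by
          rw [← Nat.choose_symm_add]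
        rw [e, Nat.choose_two_right]
        have h3 : (p + q + 2) * 2 ≤ (p + q + 2) * (p + q + 2 - 1) := Nat.mul_le_mul_left _ (by omega)
        omega
      have h2z : ((p : ℤ) + q + 2) ≤ ((p + q + 1 + 1).choose (p + q) : ℤ) := by exact_mod_cast h2
      have hpz : (2 : ℤ) ≤ p := by exact_mod_cast hp
      have hqz : (2 : ℤ) ≤ q := by exact_mod_cast hq
      simp
      linarith
    · rw [if_pos hK, if_pos hK2]
      obtain ⟨j, rfl⟩ : ∃ j, K = j + 2 := ⟨K - 2, by omega⟩
      have hc := binom_core (p + q) j (by omega) (by omega)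
      have f1 : p + q + (j + 2 - 1) = p + q + j + 1 := by omega
      have f2 : p + q + (j + 2 - 2) = p + q + j := by omega
      have f3 : p + q + (j + 2) + 1 = p + q + j + 3 := by omega
      rw [f1, f2, f3]
      have hcz : (2 : ℤ) * ((p + q + j + 1).choose (p + q) : ℤ) + ((p + q + j).choose (p + q) : ℤ)
          ≤ ((p + q + j + 3).choose (p + q) : ℤ) := by exact_mod_cast hc
      linarith
  exact_mod_cast goalz

/-- Cones over Einstein products of two round spheres: the eigenvalue count at an integer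
threshold is at most the Euclidean count, in the range `2 * k + 1 ≤ 3 * n`. -/
theorem donnelly_family (p q k : ℕ) (hp : 2 ≤ p) (hq : 2 ≤ q) (hk : 1 ≤ k)
    (hk2 : 2 * k + 1 ≤ 3 * (p + q + 1)) :
    ∃ A : Finset (ℕ × ℕ),
      (∀ i j : ℕ, (i, j) ∈ A ↔
        (p + q - 1) * ((q - 1) * (i * (i + p - 1)) + (p - 1) * (j * (j + q - 1)))
          ≤ (p - 1) * (q - 1) * (k * (k + p + q - 1))) ∧
      ∑ x ∈ A, ((p + x.1).choose p - (p + x.1 - 2).choose p)
          * ((q + x.2).choose q - (q + x.2 - 2).choose q)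
        ≤ (p + q + k).choose k + (p + q + k - 1).choose (k - 1) := by
  classical
  obtain ⟨a, rfl⟩ : ∃ a, p = a + 2 := ⟨p - 2, by omega⟩
  obtain ⟨b, rfl⟩ : ∃ b, q = b + 2 := ⟨q - 2, by omega⟩
  have key : ∀ i j : ℕ,
      (a + 2 + (b + 2) - 1) * ((b + 2 - 1) * (i * (i + (a + 2) - 1))
          + (a + 2 - 1) * (j * (j + (b + 2) - 1)))
        ≤ (a + 2 - 1) * (b + 2 - 1) * (k * (k + (a + 2) + (b + 2) - 1)) → i + j < k := by
    intro i j h
    apply diag_lt a b i j k hk
    have e1 : a + 2 + (b + 2) - 1 = a + b + 3 := by omega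
    have e2 : b + 2 - 1 = b + 1 := by omega
    have e3 : a + 2 - 1 = a + 1 := by omega
    have e4 : i + (a + 2) - 1 = i + a + 1 := by omega
    have e5 : j + (b + 2) - 1 = j + b + 1 := by omega
    have e6 : k + (a + 2) + (b + 2) - 1 = k + a + b + 3 := by omega
    rw [e1, e2, e3, e4, e5, e6] at h
    exact h
  refine ⟨((range k) ×ˢ (range k)).filter (fun x =>
      (a + 2 + (b + 2) - 1) * ((b + 2 - 1) * (x.1 * (x.1 + (a + 2) - 1))
          + (a + 2 - 1) * (x.2 * (x.2 + (b + 2) - 1)))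
        ≤ (a + 2 - 1) * (b + 2 - 1) * (k * (k + (a + 2) + (b + 2) - 1))), ?_, ?_⟩
  · intro i j
    simp only [mem_filter, mem_product, mem_range]
    constructor
    · intro h; exact h.2
    · intro h
      have := key i j h
      exact ⟨⟨by omega, by omega⟩, h⟩
  · refine le_trans ?_ (tri_le (a + 2) (b + 2) k hp hq hk hk2)
    rw [← Finset.sum_biUnion]
    · apply Finset.sum_le_sum_of_subset
      intro x hx
      simp only [mem_filter, mem_product, mem_range] at hx
      have := key x.1 x.2 hx.2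
      simp only [mem_biUnion, mem_range, HasAntidiagonal.mem_antidiagonal]
      exact ⟨x.1 + x.2, this, rfl⟩
    · intro s _ t _ hst
      simp only [Function.onFun]
      rw [Finset.disjoint_left]
      intro x hx hx'
      rw [HasAntidiagonal.mem_antidiagonal] at hx hx'
      exact hst (hx.symm.trans hx')

end Vale.Agent.Lib.P225
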