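import Vale.Agent.Lib.P225.RadialCoeff
import Vale.Agent.Lib.P225.Complete

namespace Vale.Agent.Lib.P225

open MeasureTheory Set Filter Topology MvPolynomial

variable {n : ℕ}

/-- Linear combinations of regular solutions of the radial equation are regular solutions. -/
lemma RadialData.sum {ι : Type*} [Fintype ι] [Nonempty ι] {m l : ℕ} {f f' : ℝ → ℝ} (a : ι → ℝ)
    {c c' c'' : ι → ℝ → ℝ} (h : ∀ i, RadialData m l f f' (c i) (c' i) (c'' i)) :
    RadialData m l f f' (fun r => ∑ i, a i * c i r) (fun r => ∑ i, a i * c' i r)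
      (fun r => ∑ i, a i * c'' i r) where
  hf := (h (Classical.arbitrary ι)).hf
  hc := fun r hr => HasDerivAt.fun_sum (fun i _ => ((h i).hc r hr).const_mul (a i))
  hc' := fun r hr => HasDerivAt.fun_sum (fun i _ => ((h i).hc' r hr).const_mul (a i))
  fpos := (h (Classical.arbitrary ι)).fpos
  fle := (h (Classical.arbitrary ι)).fle
  f'le := (h (Classical.arbitrary ι)).f'le
  ode := fun r hr => by
    have e : (∑ i, a i * c'' i r) + ((m : ℝ) + 2) * (f' r / f r) * (∑ i, a i * c' i r)
        - (l : ℝ) * (l + m + 1) * (∑ i, a i * c i r) / (f r) ^ 2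
        = ∑ i, a i * (c'' i r + ((m : ℝ) + 2) * (f' r / f r) * c' i r
          - (l : ℝ) * (l + m + 1) * c i r / (f r) ^ 2) := by
      rw [Finset.mul_sum, Finset.mul_sum, Finset.sum_div, ← Finset.sum_add_distrib,
        ← Finset.sum_sub_distrib]
      apply Finset.sum_congr rfl
      intro i _
      ring
    rw [e]
    apply Finset.sum_eq_zero
    intro i _
    rw [(h i).ode r hr, mul_zero]
  bdd := by
    choose B hB using fun i => (h i).bdd
    refine ⟨∑ i, |a i| * |B i|, fun r hr hr1 => ⟨?_, ?_⟩⟩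
    · calc |∑ i, a i * c i r| ≤ ∑ i, |a i * c i r| := Finset.abs_sum_le_sum_abs _ _
        _ ≤ ∑ i, |a i| * |B i| := by
          apply Finset.sum_le_sum
          intro i _
          rw [abs_mul]
          exact mul_le_mul_of_nonneg_left (le_trans (hB i r hr hr1).1 (le_abs_self _))
            (abs_nonneg _)
    · calc |∑ i, a i * c' i r| ≤ ∑ i, |a i * c' i r| := Finset.abs_sum_le_sum_abs _ _
        _ ≤ ∑ i, |a i| * |B i| := by
          apply Finset.sum_le_sum
          intro i _
          rw [abs_mul]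
          exact mul_le_mul_of_nonneg_left (le_trans (hB i r hr hr1).2 (le_abs_self _))
            (abs_nonneg _)

lemma deriv_zero_of_vanish_left {c : ℝ → ℝ} {c1 : ℝ} (h : HasDerivAt c c1 1)
    (hz : ∀ r, 0 < r → r ≤ 1 → c r = 0) : c1 = 0 := by
  have hs : UniqueDiffWithinAt ℝ (Icc (1 / 2 : ℝ) 1) 1 :=
    uniqueDiffOn_Icc (by norm_num) 1 ⟨by norm_num, le_rfl⟩
  have h1 : HasDerivWithinAt c c1 (Icc (1 / 2 : ℝ) 1) 1 := h.hasDerivWithinAt
  have h2 : HasDerivWithinAt c 0 (Icc (1 / 2 : ℝ) 1) 1 := by
    refine (hasDerivWithinAt_const (1 : ℝ) (Icc (1 / 2 : ℝ) 1) (0 : ℝ)).congr ?_ ?_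
    · intro x hx
      exact hz x (by linarith [hx.1]) hx.2
    · exact hz 1 one_pos le_rfl
  exact hs.eq_deriv _ h1 h2

/-- The coefficient against a polynomial, as a linear functional of the polynomial. -/
noncomputable def cfunL (u : EE n → ℝ) (hu : Continuous u) (r : ℝ) :
    MvPolynomial (Fin n) ℝ →ₗ[ℝ] ℝ where
  toFun Y := cfun u Y r
  map_add' Y Z := by
    have hs : Continuous (fun y : EE n => u (r • y)) := hu.comp (continuous_const_smul r)
    have h1 : Continuous (fun y => u (r • y) * pf Y y) := hs.mul (contDiff_pf Y 0).continuous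
    have h2 : Continuous (fun y => u (r • y) * pf Z y) := hs.mul (contDiff_pf Z 0).continuous
    unfold cfun
    rw [← sphMean_add h1.continuousOn h2.continuousOn]
    apply sphMean_congr
    intro y _
    rw [pf_add]
    ring
  map_smul' a Y := by
    unfold cfun
    simp only [RingHom.id_apply, smul_eq_mul]
    rw [← sphMean_const_mul]
    apply sphMean_congr
    intro y _
    rw [pf_smul]
    ring

lemma cfunL_apply (u : EE n → ℝ) (hu : Continuous u) (r : ℝ) (Y : MvPolynomial (Fin n) ℝ) :
    cfunL u hu r Y = cfun u Y r := rfl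

lemma cfun_rsq_mul (u : EE n → ℝ) (Q : MvPolynomial (Fin n) ℝ) (r : ℝ) :
    cfun u (rsq n * Q) r = cfun u Q r := by
  unfold cfun
  apply sphMean_congr
  intro y hy
  rw [pf_mul, pf_rsq, hy]
  ring

/-- Yau's dimension bound for rotationally symmetric manifolds with nonnegative Ricci
curvature, in dimension `m + 3`. -/
theorem rotsym_yau_aux (m k : ℕ) (hk : 1 ≤ k) (f : ℝ → ℝ) (hf : ContDiff ℝ 2 f) (hf0 : f 0 = 0)
    (hf1 : deriv f 0 = 1) (hpos : ∀ r, 0 < r → 0 < f r)
    (hric : ∀ r, 0 < r → deriv (deriv f) r ≤ 0)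
    {ι : Type} [Fintype ι] (u : ι → EE (m + 3) → ℝ) (hu : ∀ i, ContDiff ℝ 2 (u i))
    (hharm : ∀ i x, x ≠ 0 → rotLaplacian (m + 3) f (u i) x = 0)
    (hgrowth : ∀ i, ∃ C, ∀ x, |u i x| ≤ C * (1 + ‖x‖) ^ k)
    (hlin : LinearIndependent ℝ u) :
    Fintype.card ι ≤ (m + 3 + k - 1).choose k + (m + 3 + k - 2).choose (k - 1) := by
  by_contra hcon
  rw [not_le] at hcon
  have hne : Nonempty ι := by
    rw [← Fintype.card_pos_iff]
    omega
  have huc : ∀ i, Continuous (u i) := fun i => (hu i).continuous
  -- the moment map at radius one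
  let Φ : (ι → ℝ) →ₗ[ℝ] (∀ l : Fin (k + 1), Module.Dual ℝ (harmSub (m + 3) l)) :=
    LinearMap.pi (fun l => ∑ i, (LinearMap.proj i : (ι → ℝ) →ₗ[ℝ] ℝ).smulRight
      ((cfunL (u i) (huc i) 1).domRestrict (harmSub (m + 3) l)))
  have hΦ : ∀ (a : ι → ℝ) (l : Fin (k + 1)) (Y : harmSub (m + 3) l),
      Φ a l Y = ∑ i, a i * cfun (u i) Y 1 := by
    intro a l Y
    simp [Φ, cfunL_apply]
  have hdim : Module.finrank ℝ (∀ l : Fin (k + 1), Module.Dual ℝ (harmSub (m + 3) l))
      = (m + 3 + k - 1).choose k + (m + 3 + k - 2).choose (k - 1) := by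
    rw [Module.finrank_pi_fintype]
    simp only [Subspace.dual_finrank_eq]
    rw [Fin.sum_univ_eq_sum_range (fun l => Module.finrank ℝ (harmSub (m + 3) l)) (k + 1)]
    exact sum_finrank_harmSub (by omega) k hk
  have hker : LinearMap.ker Φ ≠ ⊥ := by
    apply LinearMap.ker_ne_bot_of_finrank_lt
    rw [hdim, Module.finrank_fintype_fun_eq_card]
    exact hcon
  obtain ⟨a, ha, ha0⟩ := (Submodule.ne_bot_iff _).mp hker
  have hkerY : ∀ l, l ≤ k → ∀ Y ∈ harmSub (m + 3) l, ∑ i, a i * cfun (u i) Y 1 = 0 := by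
    intro l hl Y hY
    have h1 : Φ a = 0 := LinearMap.mem_ker.mp ha
    have h2 := hΦ a ⟨l, by omega⟩ ⟨Y, hY⟩
    rw [h1] at h2
    simpa using h2.symm
  have hRD : ∀ (l : ℕ) (Y : MvPolynomial (Fin (m + 3)) ℝ), Y ∈ harmSub (m + 3) l →
      RadialData m l f (deriv f) (fun r => ∑ i, a i * cfun (u i) Y r)
        (fun r => ∑ i, a i * cfun1 (u i) Y r) (fun r => ∑ i, a i * cfun2 (u i) Y r) :=
    fun l Y hY => RadialData.sum a
      (fun i => radialData_of_harmonic hf hf0 hf1 hpos hric (hu i) (hharm i) hY)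
  have hf'c : ContinuousOn (deriv f) (Ioi 0) := by
    have hd1 : ContDiff ℝ 1 (deriv f) := by
      have := hf.iterate_deriv' 1 1
      simpa using this
    exact hd1.continuous.continuousOn
  have hvanish : ∀ (l : ℕ) (Y : MvPolynomial (Fin (m + 3)) ℝ), Y ∈ harmSub (m + 3) l →
      ∀ r, 0 < r → ∑ i, a i * cfun (u i) Y r = 0 := by
    intro l Y hY r hr
    have hrd := hRD l Y hY
    by_cases hl : k < l
    · choose C hC using hgrowth
      choose C' hC' using fun i => cfun_growth (u i) Y (hC i)
      refine radial_vanish_of_growth hrd hl (C := ∑ i, |a i| * |C' i|) ?_ hr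
      intro s hs
      calc |∑ i, a i * cfun (u i) Y s| ≤ ∑ i, |a i * cfun (u i) Y s| :=
            Finset.abs_sum_le_sum_abs _ _
        _ ≤ ∑ i, |a i| * |C' i| * (1 + s) ^ k := by
            apply Finset.sum_le_sum
            intro i _
            rw [abs_mul, mul_assoc]
            apply mul_le_mul_of_nonneg_left _ (abs_nonneg _)
            have hp : 0 ≤ (1 + s) ^ k := by positivity
            exact le_trans (hC' i s hs) (mul_le_mul_of_nonneg_right (le_abs_self _) hp)
        _ = (∑ i, |a i| * |C' i|) * (1 + s) ^ k := by rw [Finset.sum_mul]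
    · have h1 := hkerY l (by omega) Y hY
      rcases le_or_gt r 1 with hr1 | hr1
      · exact radial_vanish_left hrd one_pos h1 hr hr1
      · have hc1 : ∑ i, a i * cfun1 (u i) Y 1 = 0 :=
          deriv_zero_of_vanish_left (hrd.hc 1 one_pos)
            (fun s hs hs1 => radial_vanish_left hrd one_pos h1 hs hs1)
        exact radial_unique hrd hf'c one_pos h1 hc1 hr1.le
  have hall : ∀ (P : MvPolynomial (Fin (m + 3)) ℝ) (r : ℝ), 0 < r →
      ∑ i, a i * cfun (u i) P r = 0 := by
    intro P r hr
    let L : MvPolynomial (Fin (m + 3)) ℝ →ₗ[ℝ] ℝ := ∑ i, a i • cfunL (u i) (huc i) r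
    have hL : ∀ Q, L Q = ∑ i, a i * cfun (u i) Q r := by
      intro Q
      simp [L, cfunL_apply]
    have h := functional_vanish (by omega) L 1
      (fun Q => by rw [hL, hL, one_mul]; simp only [cfun_rsq_mul])
      (fun l H h1 h2 => by rw [hL]; exact hvanish l H (mem_harmSub.mpr ⟨h1, h2⟩) r hr) P
    rwa [hL] at h
  have hUc : Continuous (fun x => ∑ i, a i * u i x) :=
    continuous_finsetSum _ (fun i _ => continuous_const.mul (huc i))
  have hU : ∀ x, x ≠ 0 → ∑ i, a i * u i x = 0 := by
    intro x hx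
    set r := ‖x‖ with hr
    have hr0 : 0 < r := norm_pos_iff.mpr hx
    have hs : Continuous (fun y : EE (m + 3) => r • y) := continuous_const_smul r
    have hg : Continuous (fun y => ∑ i, a i * u i (r • y)) := hUc.comp hs
    have hmom : ∀ P : MvPolynomial (Fin (m + 3)) ℝ,
        sphMean (fun y => (∑ i, a i * u i (r • y)) * pf P y) = 0 := by
      intro P
      have e : (fun y => (∑ i, a i * u i (r • y)) * pf P y)
          = fun y => ∑ i, a i * (u i (r • y) * pf P y) := by
        funext y
        rw [Finset.sum_mul]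
        apply Finset.sum_congr rfl
        intro i _
        ring
      rw [e, sphMean_finset_sum]
      · simp only [sphMean_const_mul]
        exact hall P r hr0
      · intro i _
        exact (continuous_const.mul (((huc i).comp hs).mul
          (contDiff_pf P 0).continuous)).continuousOn
    have h := sphere_complete hg hmom (norm_nu hx)
    have hx' : r • nu x = x := by
      unfold nu
      rw [smul_smul, mul_inv_cancel₀ hr0.ne', one_smul]
    simpa [hx'] using h
  have hU0 : ∀ x, ∑ i, a i * u i x = 0 := by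
    intro x
    by_cases hx : x = 0
    · subst hx
      set e : EE (m + 3) := EuclideanSpace.single (0 : Fin (m + 3)) (1 : ℝ) with he
      have he0 : e ≠ 0 := by
        intro h
        have := congrArg (fun v : EE (m + 3) => v 0) h
        simp [he] at this
      have hφ : Continuous (fun t : ℝ => ∑ i, a i * u i (t • e)) :=
        hUc.comp (continuous_id.smul continuous_const)
      have hclosed : IsClosed {t : ℝ | ∑ i, a i * u i (t • e) = 0} :=
        isClosed_eq hφ continuous_const
      have hsub : Ioi (0 : ℝ) ⊆ {t : ℝ | ∑ i, a i * u i (t • e) = 0} := by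
        intro t ht
        exact hU (t • e) (smul_ne_zero (ne_of_gt ht) he0)
      have h0 : (0 : ℝ) ∈ closure (Ioi (0 : ℝ)) := by
        rw [closure_Ioi]
        exact self_mem_Ici
      have := hclosed.closure_subset_iff.mpr hsub h0
      simpa using this
    · exact hU x hx
  have hz := Fintype.linearIndependent_iff.mp hlin a (by
    funext x
    simpa using hU0 x)
  exact ha0 (funext hz)

end Vale.Agent.Lib.P225
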