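import Vale.Agent.Lib.P225.Radial

namespace Vale.Agent.Lib.P225

open Set Filter Topology

variable {m l : ℕ} {f f' c c' c'' : ℝ → ℝ}

/-- A regular solution of the mode-`l` equation that grows at most like `r^d` with real
`d < l` vanishes identically. -/
lemma radial_vanish_of_growth_real (h : RadialData m l f f' c c' c'') {d : ℝ} (hd0 : 0 ≤ d)
    (hdl : d < l) {C : ℝ} (hC : ∀ r, 0 < r → |c r| ≤ C * (1 + r) ^ d) {r0 : ℝ} (hr0 : 0 < r0) :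
    c r0 = 0 := by
  by_contra hne
  have hp0 : 0 < r0 ^ (2 * l) := pow_pos hr0 _
  set δ := c r0 ^ 2 / r0 ^ (2 * l) with hδ
  have hδ0 : 0 < δ := by
    have : 0 < c r0 ^ 2 := by positivity
    positivity
  set M := C ^ 2 * (4 : ℝ) ^ d + 1 with hM
  have hM0 : 0 < M := by
    have : 0 ≤ C ^ 2 * (4 : ℝ) ^ d := by positivity
    linarith
  set ε := (l : ℝ) - d with hε
  have hε0 : 0 < ε := by linarith
  have ht : Tendsto (fun x : ℝ => x ^ (-(2 * ε))) atTop (𝓝 0) :=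
    tendsto_rpow_neg_atTop (by linarith)
  have hev1 : ∀ᶠ x : ℝ in atTop, x ^ (-(2 * ε)) < δ / M :=
    (tendsto_order.1 ht).2 _ (by positivity)
  have hev2 : ∀ᶠ x : ℝ in atTop, max r0 1 ≤ x := eventually_ge_atTop _
  obtain ⟨r, hr1, hr2⟩ := (hev1.and hev2).exists
  have hrr0 : r0 ≤ r := le_trans (le_max_left _ _) hr2
  have hr1' : 1 ≤ r := le_trans (le_max_right _ _) hr2
  have hrpos : 0 < r := by linarith
  have hm := wsq_monotoneOn h (mem_Ioi.mpr hr0) (mem_Ioi.mpr hrpos) hrr0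
  simp only at hm
  have hp : 0 < r ^ (2 * l) := pow_pos hrpos _
  have hc := hC r hrpos
  have h1 : c r ^ 2 ≤ (C * (1 + r) ^ d) ^ 2 := by
    rw [← sq_abs (c r)]
    exact pow_le_pow_left₀ (abs_nonneg _) hc 2
  have h2 : (1 + r) ^ d ≤ (2 * r) ^ d :=
    Real.rpow_le_rpow (by linarith) (by linarith) hd0
  have h2' : (2 * r) ^ d = (2 : ℝ) ^ d * r ^ d := Real.mul_rpow (by norm_num) hrpos.le
  have h3 : (C * (1 + r) ^ d) ^ 2 ≤ C ^ 2 * (4 : ℝ) ^ d * r ^ (2 * d) := by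
    have e1 : ((2 : ℝ) ^ d) ^ 2 = (4 : ℝ) ^ d := by
      rw [← Real.rpow_natCast, ← Real.rpow_mul (by norm_num), mul_comm,
        Real.rpow_mul (by norm_num)]
      norm_num
    have e2 : (r ^ d) ^ 2 = r ^ (2 * d) := by
      rw [← Real.rpow_natCast, ← Real.rpow_mul hrpos.le, mul_comm]
      norm_num
    have hpos1 : 0 ≤ (1 + r) ^ d := Real.rpow_nonneg (by linarith) _
    calc (C * (1 + r) ^ d) ^ 2 = C ^ 2 * ((1 + r) ^ d) ^ 2 := by ring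
      _ ≤ C ^ 2 * ((2 * r) ^ d) ^ 2 := by
          apply mul_le_mul_of_nonneg_left _ (sq_nonneg C)
          exact pow_le_pow_left₀ hpos1 h2 2
      _ = C ^ 2 * (4 : ℝ) ^ d * r ^ (2 * d) := by
          rw [h2', mul_pow, e1, e2]; ring
  have h4 : r ^ (2 * d) = r ^ (-(2 * ε)) * r ^ (2 * l) := by
    rw [← Real.rpow_natCast r (2 * l), ← Real.rpow_add hrpos]
    congr 1
    rw [hε]; push_cast; ring
  have h5 : δ * r ^ (2 * l) ≤ c r ^ 2 := by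
    have := hm
    rwa [le_div_iff₀ hp] at this
  have h6 : δ * r ^ (2 * l) ≤ C ^ 2 * (4 : ℝ) ^ d * (r ^ (-(2 * ε)) * r ^ (2 * l)) := by
    calc δ * r ^ (2 * l) ≤ c r ^ 2 := h5
      _ ≤ (C * (1 + r) ^ d) ^ 2 := h1
      _ ≤ C ^ 2 * (4 : ℝ) ^ d * r ^ (2 * d) := h3
      _ = C ^ 2 * (4 : ℝ) ^ d * (r ^ (-(2 * ε)) * r ^ (2 * l)) := by rw [h4]
  have h7 : δ ≤ C ^ 2 * (4 : ℝ) ^ d * r ^ (-(2 * ε)) := by
    have : δ * r ^ (2 * l) ≤ (C ^ 2 * (4 : ℝ) ^ d * r ^ (-(2 * ε))) * r ^ (2 * l) := by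
      linarith [h6]
    exact le_of_mul_le_mul_right this hp
  have h8 : r ^ (-(2 * ε)) * M < δ := by
    rwa [lt_div_iff₀ hM0] at hr1
  have h9 : 0 ≤ r ^ (-(2 * ε)) := Real.rpow_nonneg hrpos.le _
  have h10 : C ^ 2 * (4 : ℝ) ^ d * r ^ (-(2 * ε)) ≤ r ^ (-(2 * ε)) * M := by
    rw [hM]; nlinarith
  linarith

end Vale.Agent.Lib.P225
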