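import Vale.Agent.Lib.P225.Main
import Vale.Agent.Lib.P225.RadialReal

namespace Vale.Agent.Lib.P225

open MeasureTheory Set Filter Topology MvPolynomial

variable {n : ℕ}

lemma cfun_growth_real (u : EE n → ℝ) (Y : MvPolynomial (Fin n) ℝ) {d : ℝ}
    {C : ℝ} (hC : ∀ x, |u x| ≤ C * (1 + ‖x‖) ^ d) :
    ∃ C', ∀ r, 0 < r → |cfun u Y r| ≤ C' * (1 + r) ^ d := by
  have hY : Continuous (pf Y) := (contDiff_pf Y 0).continuous
  obtain ⟨M2, hM2⟩ := (isCompact_sphere (0 : EE n) 1).exists_bound_of_continuousOn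
    hY.continuousOn
  set vol := (volume : Measure (EE n)).real (ann n) with hvol
  have hvol0 : 0 ≤ vol := measureReal_nonneg
  refine ⟨|C| * |M2| * vol, fun r hr0 => ?_⟩
  have hp : 0 ≤ (1 + r) ^ d := Real.rpow_nonneg (by linarith) _
  have h := abs_sphMean_le (G := fun y => u (r • y) * pf Y y) (M := |C| * (1 + r) ^ d * |M2|)
    (fun y hy => by
      have h1 : |u (r • y)| ≤ |C| * (1 + r) ^ d := by
        have := hC (r • y)
        rw [norm_smul, hy, mul_one, Real.norm_eq_abs, abs_of_pos hr0] at this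
        exact le_trans this (mul_le_mul_of_nonneg_right (le_abs_self _) hp)
      have h2 : |pf Y y| ≤ |M2| := by
        have := hM2 y (by simpa using hy)
        rw [Real.norm_eq_abs] at this
        exact le_trans this (le_abs_self _)
      rw [abs_mul]
      exact mul_le_mul h1 h2 (abs_nonneg _) (by positivity))
  calc |cfun u Y r| ≤ |C| * (1 + r) ^ d * |M2| * vol := h
    _ = |C| * |M2| * vol * (1 + r) ^ d := by ring

/-- Yau's dimension bound for rotationally symmetric manifolds with nonnegative Ricci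
curvature, in dimension `m + 3`, for real growth exponents `d ≥ 1`. -/
theorem rotsym_yau_real_aux (m : ℕ) (d : ℝ) (hd : 1 ≤ d) (f : ℝ → ℝ) (hf : ContDiff ℝ 2 f) (hf0 : f 0 = 0)
    (hf1 : deriv f 0 = 1) (hpos : ∀ r, 0 < r → 0 < f r)
    (hric : ∀ r, 0 < r → deriv (deriv f) r ≤ 0)
    {ι : Type} [Fintype ι] (u : ι → EE (m + 3) → ℝ) (hu : ∀ i, ContDiff ℝ 2 (u i))
    (hharm : ∀ i x, x ≠ 0 → rotLaplacian (m + 3) f (u i) x = 0)
    (hgrowth : ∀ i, ∃ C, ∀ x, |u i x| ≤ C * (1 + ‖x‖) ^ d)
    (hlin : LinearIndependent ℝ u) :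
    Fintype.card ι ≤ (m + 3 + ⌊d⌋₊ - 1).choose ⌊d⌋₊ + (m + 3 + ⌊d⌋₊ - 2).choose (⌊d⌋₊ - 1) := by
  set k := ⌊d⌋₊ with hkdef
  have hk : 1 ≤ k := Nat.le_floor (by simpa using hd)
  have hd0 : 0 ≤ d := by linarith
  by_contra hcon
  rw [not_le] at hcon
  have hne : Nonempty ι := by
    rw [← Fintype.card_pos_iff]
    omega
  have huc : ∀ i, Continuous (u i) := fun i => (hu i).continuous
  -- the moment map at radius one
  let Φ : (ι → ℝ) →ₗ[ℝ] (∀ l : Fin (k + 1), Module.Dual ℝ (harmSub (m + 3) l)) :=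
    LinearMap.pi (fun l => ∑ i, (LinearMap.proj i : (ι → ℝ) →ₗ[ℝ] ℝ).smulRight
      ((cfunL (u i) (huc i) 1).domRestrict (harmSub (m + 3) l)))
  have hΦ : ∀ (a : ι → ℝ) (l : Fin (k + 1)) (Y : harmSub (m + 3) l),
      Φ a l Y = ∑ i, a i * cfun (u i) Y 1 := by
    intro a l Y
    simp [Φ, cfunL_apply]
  have hdim : Module.finrank ℝ (∀ l : Fin (k + 1), Module.Dual ℝ (harmSub (m + 3) l))
      = (m + 3 + k - 1).choose k + (m + 3 + k - 2).choose (k - 1) := by
    rw [Module.finrank_pi_fintype]
    simp only [Subspace.dual_finrank_eq]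
    rw [Fin.sum_univ_eq_sum_range (fun l => Module.finrank ℝ (harmSub (m + 3) l)) (k + 1)]
    exact sum_finrank_harmSub (by omega) k hk
  have hker : LinearMap.ker Φ ≠ ⊥ := by
    apply LinearMap.ker_ne_bot_of_finrank_lt
    rw [hdim, Module.finrank_fintype_fun_eq_card]
    exact hcon
  obtain ⟨a, ha, ha0⟩ := (Submodule.ne_bot_iff _).mp hker
  have hkerY : ∀ l, l ≤ k → ∀ Y ∈ harmSub (m + 3) l, ∑ i, a i * cfun (u i) Y 1 = 0 := by
    intro l hl Y hY
    have h1 : Φ a = 0 := LinearMap.mem_ker.mp ha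
    have h2 := hΦ a ⟨l, by omega⟩ ⟨Y, hY⟩
    rw [h1] at h2
    simpa using h2.symm
  have hRD : ∀ (l : ℕ) (Y : MvPolynomial (Fin (m + 3)) ℝ), Y ∈ harmSub (m + 3) l →
      RadialData m l f (deriv f) (fun r => ∑ i, a i * cfun (u i) Y r)
        (fun r => ∑ i, a i * cfun1 (u i) Y r) (fun r => ∑ i, a i * cfun2 (u i) Y r) :=
    fun l Y hY => RadialData.sum a
      (fun i => radialData_of_harmonic hf hf0 hf1 hpos hric (hu i) (hharm i) hY)
  have hf'c : ContinuousOn (deriv f) (Ioi 0) := by
    have hd1 : ContDiff ℝ 1 (deriv f) := by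
      have := hf.iterate_deriv' 1 1
      simpa using this
    exact hd1.continuous.continuousOn
  have hvanish : ∀ (l : ℕ) (Y : MvPolynomial (Fin (m + 3)) ℝ), Y ∈ harmSub (m + 3) l →
      ∀ r, 0 < r → ∑ i, a i * cfun (u i) Y r = 0 := by
    intro l Y hY r hr
    have hrd := hRD l Y hY
    by_cases hl : k < l
    · choose C hC using hgrowth
      choose C' hC' using fun i => cfun_growth_real (u i) Y (hC i)
      have hdl : d < (l : ℝ) := Nat.lt_of_floor_lt hl
      refine radial_vanish_of_growth_real hrd hd0 hdl (C := ∑ i, |a i| * |C' i|) ?_ hr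
      intro s hs
      calc |∑ i, a i * cfun (u i) Y s| ≤ ∑ i, |a i * cfun (u i) Y s| :=
            Finset.abs_sum_le_sum_abs _ _
        _ ≤ ∑ i, |a i| * |C' i| * (1 + s) ^ d := by
            apply Finset.sum_le_sum
            intro i _
            rw [abs_mul, mul_assoc]
            apply mul_le_mul_of_nonneg_left _ (abs_nonneg _)
            have hp : 0 ≤ (1 + s) ^ d := Real.rpow_nonneg (by linarith) _
            exact le_trans (hC' i s hs) (mul_le_mul_of_nonneg_right (le_abs_self _) hp)
        _ = (∑ i, |a i| * |C' i|) * (1 + s) ^ d := by rw [Finset.sum_mul]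
    · have h1 := hkerY l (by omega) Y hY
      rcases le_or_gt r 1 with hr1 | hr1
      · exact radial_vanish_left hrd one_pos h1 hr hr1
      · have hc1 : ∑ i, a i * cfun1 (u i) Y 1 = 0 :=
          deriv_zero_of_vanish_left (hrd.hc 1 one_pos)
            (fun s hs hs1 => radial_vanish_left hrd one_pos h1 hs hs1)
        exact radial_unique hrd hf'c one_pos h1 hc1 hr1.le
  have hall : ∀ (P : MvPolynomial (Fin (m + 3)) ℝ) (r : ℝ), 0 < r →
      ∑ i, a i * cfun (u i) P r = 0 := by
    intro P r hr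
    let L : MvPolynomial (Fin (m + 3)) ℝ →ₗ[ℝ] ℝ := ∑ i, a i • cfunL (u i) (huc i) r
    have hL : ∀ Q, L Q = ∑ i, a i * cfun (u i) Q r := by
      intro Q
      simp [L, cfunL_apply]
    have h := functional_vanish (by omega) L 1
      (fun Q => by rw [hL, hL, one_mul]; simp only [cfun_rsq_mul])
      (fun l H h1 h2 => by rw [hL]; exact hvanish l H (mem_harmSub.mpr ⟨h1, h2⟩) r hr) P
    rwa [hL] at h
  have hUc : Continuous (fun x => ∑ i, a i * u i x) :=
    continuous_finsetSum _ (fun i _ => continuous_const.mul (huc i))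
  have hU : ∀ x, x ≠ 0 → ∑ i, a i * u i x = 0 := by
    intro x hx
    set r := ‖x‖ with hr
    have hr0 : 0 < r := norm_pos_iff.mpr hx
    have hs : Continuous (fun y : EE (m + 3) => r • y) := continuous_const_smul r
    have hg : Continuous (fun y => ∑ i, a i * u i (r • y)) := hUc.comp hs
    have hmom : ∀ P : MvPolynomial (Fin (m + 3)) ℝ,
        sphMean (fun y => (∑ i, a i * u i (r • y)) * pf P y) = 0 := by
      intro P
      have e : (fun y => (∑ i, a i * u i (r • y)) * pf P y)
          = fun y => ∑ i, a i * (u i (r • y) * pf P y) := by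
        funext y
        rw [Finset.sum_mul]
        apply Finset.sum_congr rfl
        intro i _
        ring
      rw [e, sphMean_finset_sum]
      · simp only [sphMean_const_mul]
        exact hall P r hr0
      · intro i _
        exact (continuous_const.mul (((huc i).comp hs).mul
          (contDiff_pf P 0).continuous)).continuousOn
    have h := sphere_complete hg hmom (norm_nu hx)
    have hx' : r • nu x = x := by
      unfold nu
      rw [smul_smul, mul_inv_cancel₀ hr0.ne', one_smul]
    simpa [hx'] using h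
  have hU0 : ∀ x, ∑ i, a i * u i x = 0 := by
    intro x
    by_cases hx : x = 0
    · subst hx
      set e : EE (m + 3) := EuclideanSpace.single (0 : Fin (m + 3)) (1 : ℝ) with he
      have he0 : e ≠ 0 := by
        intro h
        have := congrArg (fun v : EE (m + 3) => v 0) h
        simp [he] at this
      have hφ : Continuous (fun t : ℝ => ∑ i, a i * u i (t • e)) :=
        hUc.comp (continuous_id.smul continuous_const)
      have hclosed : IsClosed {t : ℝ | ∑ i, a i * u i (t • e) = 0} :=
        isClosed_eq hφ continuous_const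
      have hsub : Ioi (0 : ℝ) ⊆ {t : ℝ | ∑ i, a i * u i (t • e) = 0} := by
        intro t ht
        exact hU (t • e) (smul_ne_zero (ne_of_gt ht) he0)
      have h0 : (0 : ℝ) ∈ closure (Ioi (0 : ℝ)) := by
        rw [closure_Ioi]
        exact self_mem_Ici
      have := hclosed.closure_subset_iff.mpr hsub h0
      simpa using this
    · exact hU x hx
  have hz := Fintype.linearIndependent_iff.mp hlin a (by
    funext x
    simpa using hU0 x)
  exact ha0 (funext hz)

end Vale.Agent.Lib.P225
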