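import Vale.Agent.Lib.P225.Radial

namespace Vale.Agent.Lib.P225

open Set Filter Topology

variable {m l : ℕ} {f f' c c' c'' : ℝ → ℝ}

/-- `f(r)/r` is nonincreasing. -/
lemma f_div_antitoneOn (h : RadialData m l f f' c c' c'') :
    AntitoneOn (fun r => f r / r) (Ioi 0) := by
  have hd : ∀ r, 0 < r → HasDerivAt (fun r => f r / r) ((f' r * r - f r * 1) / r ^ 2) r := by
    intro r hr
    exact (h.hf r hr).div (hasDerivAt_id r) hr.ne'
  apply antitoneOn_of_deriv_nonpos (convex_Ioi 0)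
  · intro r hr
    exact (hd r hr).continuousAt.continuousWithinAt
  · intro r hr
    rw [interior_Ioi] at hr
    exact (hd r hr).differentiableAt.differentiableWithinAt
  · intro r hr
    rw [interior_Ioi] at hr
    rw [(hd r hr).deriv]
    have := h.f'le r hr
    apply div_nonpos_of_nonpos_of_nonneg _ (by positivity)
    nlinarith

/-- The monotone quantity with a real exponent. -/
noncomputable def zfunR (m : ℕ) (β : ℝ) (f c c' : ℝ → ℝ) (s : ℝ) : ℝ :=
  f s ^ (m + 2) * (c s * (c' s - β * c s / s))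

lemma zfunR_hasDerivAt (h : RadialData m l f f' c c' c'') (β : ℝ) {r : ℝ} (hr : 0 < r) :
    HasDerivAt (zfunR m β f c c')
      ((((m + 2 : ℕ) : ℝ) * f r ^ (m + 1) * f' r) * (c r * (c' r - β * c r / r))
        + f r ^ (m + 2) * (c' r * (c' r - β * c r / r)
          + c r * (c'' r - (β * c' r * r - β * c r * 1) / r ^ 2))) r := by
  have h1 := (h.hf r hr).pow (m + 2)
  have h2 : HasDerivAt (fun s => β * c s / s)
      ((β * c' r * r - β * c r * 1) / r ^ 2) r :=
    ((h.hc r hr).const_mul β).div (hasDerivAt_id r) hr.ne'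
  have h3 := (h.hc' r hr).sub h2
  have h4 := (h.hc r hr).mul h3
  have h5 := h1.mul h4
  have h6 := h5.congr_of_eventuallyEq (f₁ := zfunR m β f c c')
    (Eventually.of_forall (fun s => by simp [zfunR]))
  refine h6.congr_deriv ?_
  simp only [Pi.mul_apply, Pi.sub_apply, Pi.pow_apply]
  have : m + 2 - 1 = m + 1 := by omega
  rw [this]

/-- Lower bound for the derivative of the monotone quantity with real exponent, where
`f r ≤ α r`. -/
lemma zfunR_deriv_lower (h : RadialData m l f f' c c' c'') {β : ℝ} (hβ : 0 ≤ β) {α : ℝ}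
    {r : ℝ} (hr : 0 < r) (hα : f r ≤ α * r) :
    ((l : ℝ) * (l + m + 1) - α ^ 2 * (β * (β + m + 1))) * f r ^ m * c r ^ 2
      ≤ (((m + 2 : ℕ) : ℝ) * f r ^ (m + 1) * f' r) * (c r * (c' r - β * c r / r))
        + f r ^ (m + 2) * (c' r * (c' r - β * c r / r)
          + c r * (c'' r - (β * c' r * r - β * c r * 1) / r ^ 2)) := by
  have hf := h.fpos r hr
  have hf'le := h.f'le r hr
  have hode := h.ode r hr
  have hc'' : c'' r = -(((m : ℝ) + 2) * (f' r / f r) * c' r)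
      + (l : ℝ) * (l + m + 1) * c r / (f r) ^ 2 := by linarith
  have key : (((m + 2 : ℕ) : ℝ) * f r ^ (m + 1) * f' r) * (c r * (c' r - β * c r / r))
        + f r ^ (m + 2) * (c' r * (c' r - β * c r / r)
          + c r * (c'' r - (β * c' r * r - β * c r * 1) / r ^ 2))
      = f r ^ (m + 1) * (f r * (c' r - β * c r / r) ^ 2
          + c r ^ 2 * ((l : ℝ) * (l + m + 1) / f r - β * (β - 1) * f r / r ^ 2
              - ((m : ℝ) + 2) * β * f' r / r)) := by
    rw [hc'']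
    push_cast
    field_simp
    ring
  rw [key]
  have e0 : ((l : ℝ) * (l + m + 1) - α ^ 2 * (β * (β + m + 1))) * f r ^ m * c r ^ 2
      = f r ^ (m + 1) * (c r ^ 2 * (((l : ℝ) * (l + m + 1) - α ^ 2 * (β * (β + m + 1))) / f r)) := by
    field_simp
    ring
  rw [e0]
  apply mul_le_mul_of_nonneg_left _ (by positivity)
  have h1 : 0 ≤ f r * (c' r - β * c r / r) ^ 2 := by positivity
  have h2 : c r ^ 2 * (((l : ℝ) * (l + m + 1) - α ^ 2 * (β * (β + m + 1))) / f r)
      ≤ c r ^ 2 * ((l : ℝ) * (l + m + 1) / f r - β * (β - 1) * f r / r ^ 2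
              - ((m : ℝ) + 2) * β * f' r / r) := by
    apply mul_le_mul_of_nonneg_left _ (sq_nonneg _)
    have e2 : ((m : ℝ) + 2) * β * f' r / r ≤ ((m : ℝ) + 2) * β * f r / r ^ 2 := by
      rw [div_le_div_iff₀ hr (by positivity)]
      have h0 : (0 : ℝ) ≤ ((m : ℝ) + 2) * β := by positivity
      have : r * f' r * r ≤ f r * r := by nlinarith
      nlinarith
    have hB : (0 : ℝ) ≤ β * (β + m + 1) := by positivity
    have e3 : β * (β + m + 1) * f r / r ^ 2 ≤ α ^ 2 * (β * (β + m + 1)) / f r := by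
      rw [div_le_div_iff₀ (by positivity) hf]
      have h5 : f r ^ 2 ≤ (α * r) ^ 2 := pow_le_pow_left₀ hf.le hα 2
      nlinarith
    have e4 : β * (β + m + 1) * f r / r ^ 2
        = β * (β - 1) * f r / r ^ 2 + ((m : ℝ) + 2) * β * f r / r ^ 2 := by
      ring
    have e5 : ((l : ℝ) * (l + m + 1) - α ^ 2 * (β * (β + m + 1))) / f r
        = (l : ℝ) * (l + m + 1) / f r - α ^ 2 * (β * (β + m + 1)) / f r := by
      ring
    rw [e5]
    linarith
  linarith

/-- If `f r0 ≤ α r0` and the exponent `β ≥ 0` satisfies `α^2 β (β + n - 2) < l (l + n - 2)`, the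
monotone quantity with exponent `β` of a nonzero regular solution is eventually positive. -/
lemma zfunR_eventually_pos (h : RadialData m l f f' c c' c'')
    (hmono : ∀ r s, 0 < r → r ≤ s → f r ≤ f s)
    {α : ℝ} {r0 : ℝ} (hr0 : 0 < r0) (hfα : f r0 ≤ α * r0)
    {β : ℝ} (hβ0 : 0 ≤ β) (hβl : α ^ 2 * (β * (β + m + 1)) < (l : ℝ) * (l + m + 1))
    {r1 : ℝ} (hr1 : 0 < r1) (hne : c r1 ≠ 0) :
    ∃ R2, 1 ≤ R2 ∧ r1 ≤ R2 ∧ ∀ r, R2 ≤ r → 0 < zfunR m β f c c' r := by
  have hp1 : 0 < r1 ^ (2 * l) := pow_pos hr1 _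
  set w1 := c r1 ^ 2 / r1 ^ (2 * l) with hw1
  have hw1pos : 0 < w1 := by
    have : 0 < c r1 ^ 2 := by positivity
    positivity
  set κ := (l : ℝ) * (l + m + 1) - α ^ 2 * (β * (β + m + 1)) with hκ
  have hκpos : 0 < κ := by rw [hκ]; linarith
  set R1 := max (max r0 r1) 1 with hR1
  have hR1r0 : r0 ≤ R1 := le_trans (le_max_left _ _) (le_max_left _ _)
  have hR1r1 : r1 ≤ R1 := le_trans (le_max_right _ _) (le_max_left _ _)
  have hR1one : 1 ≤ R1 := le_max_right _ _
  have hR1pos : 0 < R1 := by linarith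
  have hfα' : ∀ r, R1 ≤ r → f r ≤ α * r := by
    intro r hr
    have hrpos : 0 < r := by linarith
    have := f_div_antitoneOn h (mem_Ioi.mpr hr0) (mem_Ioi.mpr hrpos) (le_trans hR1r0 hr)
    simp only at this
    rw [div_le_iff₀ hrpos] at this
    have h2 : f r0 / r0 ≤ α := by rw [div_le_iff₀ hr0]; exact hfα
    have h3 : f r0 / r0 * r ≤ α * r := mul_le_mul_of_nonneg_right h2 hrpos.le
    linarith
  have hcw : ∀ r, R1 ≤ r → w1 ≤ c r ^ 2 := by
    intro r hr
    have hrpos : 0 < r := by linarith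
    have := wsq_monotoneOn h (mem_Ioi.mpr hr1) (mem_Ioi.mpr hrpos) (le_trans hR1r1 hr)
    simp only at this
    rw [le_div_iff₀ (pow_pos hrpos _)] at this
    have h1 : (1 : ℝ) ≤ r ^ (2 * l) := one_le_pow₀ (by linarith)
    nlinarith
  set φ0 := f R1 with hφ0
  have hφ0pos : 0 < φ0 := h.fpos R1 hR1pos
  set K0 := κ * φ0 ^ m * w1 with hK0
  have hK0pos : 0 < K0 := by positivity
  -- the derivative of zfunR is at least K0 beyond R1
  have stepA : ∀ r, R1 ≤ r → K0
      ≤ (((m + 2 : ℕ) : ℝ) * f r ^ (m + 1) * f' r) * (c r * (c' r - β * c r / r))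
        + f r ^ (m + 2) * (c' r * (c' r - β * c r / r)
          + c r * (c'' r - (β * c' r * r - β * c r * 1) / r ^ 2)) := by
    intro r hr
    have hrpos : 0 < r := by linarith
    refine le_trans ?_ (zfunR_deriv_lower h hβ0 hrpos (hfα' r hr))
    rw [← hκ, hK0]
    have h1 : φ0 ^ m ≤ f r ^ m := pow_le_pow_left₀ hφ0pos.le (hmono R1 r hR1pos hr) m
    have h2 := hcw r hr
    have h3 : κ * φ0 ^ m ≤ κ * f r ^ m := mul_le_mul_of_nonneg_left h1 hκpos.le
    have h4 : 0 ≤ κ * f r ^ m := by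
      have := h.fpos r hrpos
      positivity
    calc κ * φ0 ^ m * w1 ≤ κ * f r ^ m * w1 := mul_le_mul_of_nonneg_right h3 hw1pos.le
      _ ≤ κ * f r ^ m * c r ^ 2 := mul_le_mul_of_nonneg_left h2 h4
  have hmonoz : MonotoneOn (fun s => zfunR m β f c c' s - K0 * s) (Ici R1) := by
    have hd : ∀ s, 0 < s → HasDerivAt (fun s => zfunR m β f c c' s - K0 * s)
        ((((m + 2 : ℕ) : ℝ) * f s ^ (m + 1) * f' s) * (c s * (c' s - β * c s / s))
          + f s ^ (m + 2) * (c' s * (c' s - β * c s / s)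
            + c s * (c'' s - (β * c' s * s - β * c s * 1) / s ^ 2)) - K0 * 1) s := by
      intro s hs
      exact (zfunR_hasDerivAt h β hs).sub ((hasDerivAt_id s).const_mul K0)
    apply monotoneOn_of_deriv_nonneg (convex_Ici R1)
    · intro s hs
      exact (hd s (lt_of_lt_of_le hR1pos hs)).continuousAt.continuousWithinAt
    · intro s hs
      rw [interior_Ici] at hs
      exact (hd s (lt_trans hR1pos hs)).differentiableAt.differentiableWithinAt
    · intro s hs
      rw [interior_Ici] at hs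
      have hspos : 0 < s := lt_trans hR1pos hs
      rw [(hd s hspos).deriv]
      have := stepA s (mem_Ioi.mp hs).le
      linarith
  have hq : 0 ≤ |zfunR m β f c c' R1| / K0 := by positivity
  refine ⟨R1 + |zfunR m β f c c' R1| / K0 + 1, by linarith, by linarith, ?_⟩
  intro r hr
  have hR1r : R1 ≤ r := by linarith
  have hm := hmonoz (mem_Ici.mpr le_rfl) (mem_Ici.mpr hR1r) hR1r
  simp only at hm
  have h1 : K0 * (|zfunR m β f c c' R1| / K0 + 1) ≤ K0 * (r - R1) := by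
    apply mul_le_mul_of_nonneg_left _ hK0pos.le
    linarith
  have h2 : K0 * (|zfunR m β f c c' R1| / K0 + 1) = |zfunR m β f c c' R1| + K0 := by
    field_simp
  have h3 := neg_abs_le (zfunR m β f c c' R1)
  nlinarith

/-- Where the monotone quantity with exponent `β` is positive, `c^2 r^(-2β)` is nondecreasing. -/
lemma rpow_wsq_monotoneOn (h : RadialData m l f f' c c' c'') {β : ℝ} {R2 : ℝ} (hR2pos : 0 < R2)
    (hzpos : ∀ r, R2 ≤ r → 0 < zfunR m β f c c' r) :
    MonotoneOn (fun r => c r ^ 2 * r ^ (-(2 * β))) (Ici R2) := by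
  have hdψ : ∀ r, 0 < r → HasDerivAt (fun r => c r ^ 2 * r ^ (-(2 * β)))
      (2 * c r * c' r * r ^ (-(2 * β)) + c r ^ 2 * (-(2 * β) * r ^ (-(2 * β) - 1))) r := by
    intro r hr
    have h1 := (h.hc r hr).pow 2
    have h2 := Real.hasDerivAt_rpow_const (x := r) (p := -(2 * β)) (Or.inl hr.ne')
    have h3 := h1.mul h2
    refine (h3.congr_of_eventuallyEq (f₁ := fun r => c r ^ 2 * r ^ (-(2 * β)))
      (Eventually.of_forall (fun s => by simp))).congr_deriv ?_
    simp only [Pi.pow_apply]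
    ring
  apply monotoneOn_of_deriv_nonneg (convex_Ici R2)
  · intro r hr
    exact (hdψ r (lt_of_lt_of_le hR2pos hr)).continuousAt.continuousWithinAt
  · intro r hr
    rw [interior_Ici] at hr
    exact (hdψ r (lt_trans hR2pos hr)).differentiableAt.differentiableWithinAt
  · intro r hr
    rw [interior_Ici] at hr
    have hrpos : 0 < r := lt_trans hR2pos hr
    rw [(hdψ r hrpos).deriv]
    have hz := hzpos r (mem_Ioi.mp hr).le
    have hf := h.fpos r hrpos
    have hz' : 0 < c r * (c' r - β * c r / r) := by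
      unfold zfunR at hz
      exact pos_of_mul_pos_right hz (by positivity)
    have hrp : 0 < r ^ (-(2 * β)) := Real.rpow_pos_of_pos hrpos _
    have e : 2 * c r * c' r * r ^ (-(2 * β)) + c r ^ 2 * (-(2 * β) * r ^ (-(2 * β) - 1))
        = 2 * r ^ (-(2 * β)) * (c r * (c' r - β * c r / r)) := by
      rw [Real.rpow_sub_one hrpos.ne']
      field_simp
      ring
    rw [e]
    positivity

/-- A function bounded by `C (1+r)^d` cannot dominate a positive multiple of `r^β`, `β > d`. -/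
lemma growth_contra {c : ℝ → ℝ} {d β : ℝ} (hd0 : 0 ≤ d) (hβd : d < β) {C : ℝ}
    (hC : ∀ r, 0 < r → |c r| ≤ C * (1 + r) ^ d) {R2 ψ2 : ℝ} (hR2 : 1 ≤ R2) (hψ2pos : 0 < ψ2)
    (hψ : ∀ r, R2 ≤ r → ψ2 ≤ c r ^ 2 * r ^ (-(2 * β))) : False := by
  set M := C ^ 2 * (4 : ℝ) ^ d + 1 with hM
  have hM0 : 0 < M := by
    have : 0 ≤ C ^ 2 * (4 : ℝ) ^ d := by positivity
    linarith
  set ε := β - d with hε
  have hε0 : 0 < ε := by linarith
  have ht : Tendsto (fun x : ℝ => x ^ (-(2 * ε))) atTop (𝓝 0) :=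
    tendsto_rpow_neg_atTop (by linarith)
  have hev1 : ∀ᶠ x : ℝ in atTop, x ^ (-(2 * ε)) < ψ2 / M :=
    (tendsto_order.1 ht).2 _ (by positivity)
  have hev2 : ∀ᶠ x : ℝ in atTop, R2 ≤ x := eventually_ge_atTop _
  obtain ⟨r, hr1', hr2⟩ := (hev1.and hev2).exists
  have hr1'' : 1 ≤ r := by linarith
  have hrpos : 0 < r := by linarith
  have hm := hψ r hr2
  have hc := hC r hrpos
  have h1 : c r ^ 2 ≤ (C * (1 + r) ^ d) ^ 2 := by
    rw [← sq_abs (c r)]
    exact pow_le_pow_left₀ (abs_nonneg _) hc 2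
  have h2 : (1 + r) ^ d ≤ (2 * r) ^ d :=
    Real.rpow_le_rpow (by linarith) (by linarith) hd0
  have h2' : (2 * r) ^ d = (2 : ℝ) ^ d * r ^ d := Real.mul_rpow (by norm_num) hrpos.le
  have h3 : (C * (1 + r) ^ d) ^ 2 ≤ C ^ 2 * (4 : ℝ) ^ d * r ^ (2 * d) := by
    have e1 : ((2 : ℝ) ^ d) ^ 2 = (4 : ℝ) ^ d := by
      rw [← Real.rpow_natCast, ← Real.rpow_mul (by norm_num), mul_comm,
        Real.rpow_mul (by norm_num)]
      norm_num
    have e2 : (r ^ d) ^ 2 = r ^ (2 * d) := by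
      rw [← Real.rpow_natCast, ← Real.rpow_mul hrpos.le, mul_comm]
      norm_num
    have hpos1 : 0 ≤ (1 + r) ^ d := Real.rpow_nonneg (by linarith) _
    calc (C * (1 + r) ^ d) ^ 2 = C ^ 2 * ((1 + r) ^ d) ^ 2 := by ring
      _ ≤ C ^ 2 * ((2 * r) ^ d) ^ 2 := by
          apply mul_le_mul_of_nonneg_left _ (sq_nonneg C)
          exact pow_le_pow_left₀ hpos1 h2 2
      _ = C ^ 2 * (4 : ℝ) ^ d * r ^ (2 * d) := by
          rw [h2', mul_pow, e1, e2]; ring
  have hrp : 0 < r ^ (-(2 * β)) := Real.rpow_pos_of_pos hrpos _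
  have h4 : r ^ (2 * d) * r ^ (-(2 * β)) = r ^ (-(2 * ε)) := by
    rw [← Real.rpow_add hrpos]
    congr 1
    rw [hε]; ring
  have h6 : ψ2 ≤ C ^ 2 * (4 : ℝ) ^ d * r ^ (-(2 * ε)) := by
    calc ψ2 ≤ c r ^ 2 * r ^ (-(2 * β)) := hm
      _ ≤ (C ^ 2 * (4 : ℝ) ^ d * r ^ (2 * d)) * r ^ (-(2 * β)) :=
          mul_le_mul_of_nonneg_right (le_trans h1 h3) hrp.le
      _ = C ^ 2 * (4 : ℝ) ^ d * r ^ (-(2 * ε)) := by rw [mul_assoc, h4]
  have h8 : r ^ (-(2 * ε)) * M < ψ2 := by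
    rwa [lt_div_iff₀ hM0] at hr1'
  have h9 : 0 ≤ r ^ (-(2 * ε)) := Real.rpow_nonneg hrpos.le _
  have h10 : C ^ 2 * (4 : ℝ) ^ d * r ^ (-(2 * ε)) ≤ r ^ (-(2 * ε)) * M := by
    rw [hM]; nlinarith
  linarith

/-- Sharp vanishing: if `f r0 ≤ α r0` at some `r0 > 0`, a regular solution of the mode-`l`
equation growing at most like `r^d` with `α^2 d (d + n - 2) < l (l + n - 2)` vanishes. -/
lemma radial_vanish_sharp (h : RadialData m l f f' c c' c'')
    (hmono : ∀ r s, 0 < r → r ≤ s → f r ≤ f s)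
    {α : ℝ} {r0 : ℝ} (hr0 : 0 < r0) (hfα : f r0 ≤ α * r0)
    {d : ℝ} (hd0 : 0 ≤ d) (hdl : α ^ 2 * (d * (d + m + 1)) < (l : ℝ) * (l + m + 1))
    {C : ℝ} (hC : ∀ r, 0 < r → |c r| ≤ C * (1 + r) ^ d) {r1 : ℝ} (hr1 : 0 < r1) :
    c r1 = 0 := by
  by_contra hne
  -- choose the exponent β
  have hcont : Continuous (fun β : ℝ => α ^ 2 * (β * (β + m + 1))) := by fun_prop
  have hev : ∀ᶠ β in 𝓝[>] d, α ^ 2 * (β * (β + m + 1)) < (l : ℝ) * (l + m + 1) :=
    (hcont.continuousAt.eventually_lt continuousAt_const hdl).filter_mono nhdsWithin_le_nhds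
  obtain ⟨β, hβ1, hβ2⟩ := (hev.and self_mem_nhdsWithin).exists
  have hβd : d < β := hβ2
  have hβ0 : 0 < β := lt_of_le_of_lt hd0 hβd
  obtain ⟨R2, hR2one, hR2r1, hzpos⟩ :=
    zfunR_eventually_pos h hmono hr0 hfα hβ0.le hβ1 hr1 hne
  have hR2pos : 0 < R2 := by linarith
  have hmonoψ := rpow_wsq_monotoneOn h hR2pos hzpos
  have hcR2 : c R2 ≠ 0 := by
    intro h0
    exact hne (radial_vanish_left h hR2pos h0 hr1 hR2r1)
  have hψ2pos : 0 < c R2 ^ 2 * R2 ^ (-(2 * β)) := by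
    have h2 : 0 < c R2 ^ 2 := by positivity
    have h3 : 0 < R2 ^ (-(2 * β)) := Real.rpow_pos_of_pos hR2pos _
    positivity
  exact growth_contra hd0 hβd hC hR2one hψ2pos
    (fun r hr => hmonoψ (mem_Ici.mpr le_rfl) (mem_Ici.mpr hr) hr)

end Vale.Agent.Lib.P225
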