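import Vale.Agent.Lib.P225.MainReal
import Vale.Agent.Lib.P225.Sharp

namespace Vale.Agent.Lib.P225

open MeasureTheory Set Filter Topology MvPolynomial

variable {n : ℕ}

/-- A positive concave function on `(0, ∞)` is nondecreasing. -/
lemma monotone_of_concave_pos {f : ℝ → ℝ} (hf : ContDiff ℝ 2 f) (hpos : ∀ r, 0 < r → 0 < f r)
    (hric : ∀ r, 0 < r → deriv (deriv f) r ≤ 0) : ∀ r s, 0 < r → r ≤ s → f r ≤ f s := by
  have hfd : Differentiable ℝ f := hf.differentiable (by norm_num)
  have hd1 : ContDiff ℝ 1 (deriv f) := by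
    have := hf.iterate_deriv' 1 1
    simpa using this
  have hanti : AntitoneOn (deriv f) (Ici 0) := by
    apply antitoneOn_of_deriv_nonpos (convex_Ici 0) hd1.continuous.continuousOn
      (hd1.differentiable (by norm_num)).differentiableOn
    intro x hx
    rw [interior_Ici] at hx
    exact hric x hx
  have hnn : ∀ a, 0 < a → 0 ≤ deriv f a := by
    intro a ha
    by_contra hneg
    rw [not_le] at hneg
    have hmono : AntitoneOn (fun s => f s - deriv f a * s) (Ici a) := by
      apply antitoneOn_of_deriv_nonpos (convex_Ici a)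
      · exact (hf.continuous.sub (continuous_const.mul continuous_id)).continuousOn
      · exact (hfd.sub (differentiable_id.const_mul _)).differentiableOn
      · intro x hx
        rw [interior_Ici] at hx
        have h1 : HasDerivAt (fun s => f s - deriv f a * s) (deriv f x - deriv f a * 1) x :=
          (hfd x).hasDerivAt.sub ((hasDerivAt_id x).const_mul _)
        rw [h1.deriv]
        have hax : a ≤ x := (mem_Ioi.mp hx).le
        have := hanti (mem_Ici.mpr ha.le) (mem_Ici.mpr (le_trans ha.le hax)) hax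
        linarith
    set s := a + f a / (-(deriv f a)) + 1 with hs
    have hfa := hpos a ha
    have hq : 0 ≤ f a / (-(deriv f a)) := div_nonneg hfa.le (by linarith)
    have has : a ≤ s := by linarith
    have h2 := hmono (mem_Ici.mpr le_rfl) (mem_Ici.mpr has) has
    simp only at h2
    have hne' : deriv f a ≠ 0 := ne_of_lt hneg
    have h3 : deriv f a * (f a / (-(deriv f a))) = -(f a) := by
      rw [div_neg, mul_neg, mul_div_assoc', mul_comm, mul_div_assoc, div_self hne', mul_one]
    have h4 : deriv f a * s = deriv f a * a + deriv f a * (f a / (-(deriv f a))) + deriv f a := by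
      rw [hs]; ring
    have h5 := hpos s (by linarith)
    linarith
  have hmonof : MonotoneOn f (Ioi 0) := by
    apply monotoneOn_of_deriv_nonneg (convex_Ioi 0) hf.continuous.continuousOn
      hfd.differentiableOn
    intro x hx
    rw [interior_Ioi] at hx
    exact hnn x hx
  intro r s hr hrs
  exact hmonof (mem_Ioi.mpr hr) (mem_Ioi.mpr (lt_of_lt_of_le hr hrs)) hrs

/-- Generic mode count: if every mode `l > L` of every linear combination of the `u i`
vanishes, then there are at most `Σ_{l ≤ L} dim H_l` of them. -/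
theorem rotsym_count_aux (m L : ℕ) (f : ℝ → ℝ) (hf : ContDiff ℝ 2 f) (hf0 : f 0 = 0)
    (hf1 : deriv f 0 = 1) (hpos : ∀ r, 0 < r → 0 < f r)
    (hric : ∀ r, 0 < r → deriv (deriv f) r ≤ 0)
    {ι : Type} [Fintype ι] (u : ι → EE (m + 3) → ℝ) (hu : ∀ i, ContDiff ℝ 2 (u i))
    (hharm : ∀ i x, x ≠ 0 → rotLaplacian (m + 3) f (u i) x = 0)
    (hmode : ∀ (a : ι → ℝ) (l : ℕ) (Y : MvPolynomial (Fin (m + 3)) ℝ), L < l →
      Y ∈ harmSub (m + 3) l →
      RadialData m l f (deriv f) (fun r => ∑ i, a i * cfun (u i) Y r)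
        (fun r => ∑ i, a i * cfun1 (u i) Y r) (fun r => ∑ i, a i * cfun2 (u i) Y r) →
      ∀ r, 0 < r → ∑ i, a i * cfun (u i) Y r = 0)
    (hlin : LinearIndependent ℝ u) :
    Fintype.card ι ≤ ∑ l ∈ Finset.range (L + 1), Module.finrank ℝ (harmSub (m + 3) l) := by
  by_contra hcon
  rw [not_le] at hcon
  have hne : Nonempty ι := by
    rw [← Fintype.card_pos_iff]
    exact lt_of_le_of_lt (Nat.zero_le _) hcon
  have huc : ∀ i, Continuous (u i) := fun i => (hu i).continuous
  -- the moment map at radius one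
  let Φ : (ι → ℝ) →ₗ[ℝ] (∀ l : Fin (L + 1), Module.Dual ℝ (harmSub (m + 3) l)) :=
    LinearMap.pi (fun l => ∑ i, (LinearMap.proj i : (ι → ℝ) →ₗ[ℝ] ℝ).smulRight
      ((cfunL (u i) (huc i) 1).domRestrict (harmSub (m + 3) l)))
  have hΦ : ∀ (a : ι → ℝ) (l : Fin (L + 1)) (Y : harmSub (m + 3) l),
      Φ a l Y = ∑ i, a i * cfun (u i) Y 1 := by
    intro a l Y
    simp [Φ, cfunL_apply]
  have hdim : Module.finrank ℝ (∀ l : Fin (L + 1), Module.Dual ℝ (harmSub (m + 3) l))
      = ∑ l ∈ Finset.range (L + 1), Module.finrank ℝ (harmSub (m + 3) l) := by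
    rw [Module.finrank_pi_fintype]
    simp only [Subspace.dual_finrank_eq]
    rw [Fin.sum_univ_eq_sum_range (fun l => Module.finrank ℝ (harmSub (m + 3) l)) (L + 1)]
  have hker : LinearMap.ker Φ ≠ ⊥ := by
    apply LinearMap.ker_ne_bot_of_finrank_lt
    rw [hdim, Module.finrank_fintype_fun_eq_card]
    exact hcon
  obtain ⟨a, ha, ha0⟩ := (Submodule.ne_bot_iff _).mp hker
  have hkerY : ∀ l, l ≤ L → ∀ Y ∈ harmSub (m + 3) l, ∑ i, a i * cfun (u i) Y 1 = 0 := by
    intro l hl Y hY
    have h1 : Φ a = 0 := LinearMap.mem_ker.mp ha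
    have h2 := hΦ a ⟨l, by omega⟩ ⟨Y, hY⟩
    rw [h1] at h2
    simpa using h2.symm
  have hRD : ∀ (l : ℕ) (Y : MvPolynomial (Fin (m + 3)) ℝ), Y ∈ harmSub (m + 3) l →
      RadialData m l f (deriv f) (fun r => ∑ i, a i * cfun (u i) Y r)
        (fun r => ∑ i, a i * cfun1 (u i) Y r) (fun r => ∑ i, a i * cfun2 (u i) Y r) :=
    fun l Y hY => RadialData.sum a
      (fun i => radialData_of_harmonic hf hf0 hf1 hpos hric (hu i) (hharm i) hY)
  have hf'c : ContinuousOn (deriv f) (Ioi 0) := by
    have hd1 : ContDiff ℝ 1 (deriv f) := by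
      have := hf.iterate_deriv' 1 1
      simpa using this
    exact hd1.continuous.continuousOn
  have hvanish : ∀ (l : ℕ) (Y : MvPolynomial (Fin (m + 3)) ℝ), Y ∈ harmSub (m + 3) l →
      ∀ r, 0 < r → ∑ i, a i * cfun (u i) Y r = 0 := by
    intro l Y hY r hr
    have hrd := hRD l Y hY
    by_cases hl : L < l
    · exact hmode a l Y hl hY hrd r hr
    · have h1 := hkerY l (by omega) Y hY
      rcases le_or_gt r 1 with hr1 | hr1
      · exact radial_vanish_left hrd one_pos h1 hr hr1
      · have hc1 : ∑ i, a i * cfun1 (u i) Y 1 = 0 :=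
          deriv_zero_of_vanish_left (hrd.hc 1 one_pos)
            (fun s hs hs1 => radial_vanish_left hrd one_pos h1 hs hs1)
        exact radial_unique hrd hf'c one_pos h1 hc1 hr1.le
  have hall : ∀ (P : MvPolynomial (Fin (m + 3)) ℝ) (r : ℝ), 0 < r →
      ∑ i, a i * cfun (u i) P r = 0 := by
    intro P r hr
    let Lf : MvPolynomial (Fin (m + 3)) ℝ →ₗ[ℝ] ℝ := ∑ i, a i • cfunL (u i) (huc i) r
    have hL : ∀ Q, Lf Q = ∑ i, a i * cfun (u i) Q r := by
      intro Q
      simp [Lf, cfunL_apply]
    have h := functional_vanish (by omega) Lf 1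
      (fun Q => by rw [hL, hL, one_mul]; simp only [cfun_rsq_mul])
      (fun l H h1 h2 => by rw [hL]; exact hvanish l H (mem_harmSub.mpr ⟨h1, h2⟩) r hr) P
    rwa [hL] at h
  have hUc : Continuous (fun x => ∑ i, a i * u i x) :=
    continuous_finsetSum _ (fun i _ => continuous_const.mul (huc i))
  have hU : ∀ x, x ≠ 0 → ∑ i, a i * u i x = 0 := by
    intro x hx
    set r := ‖x‖ with hr
    have hr0 : 0 < r := norm_pos_iff.mpr hx
    have hs : Continuous (fun y : EE (m + 3) => r • y) := continuous_const_smul r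
    have hg : Continuous (fun y => ∑ i, a i * u i (r • y)) := hUc.comp hs
    have hmom : ∀ P : MvPolynomial (Fin (m + 3)) ℝ,
        sphMean (fun y => (∑ i, a i * u i (r • y)) * pf P y) = 0 := by
      intro P
      have e : (fun y => (∑ i, a i * u i (r • y)) * pf P y)
          = fun y => ∑ i, a i * (u i (r • y) * pf P y) := by
        funext y
        rw [Finset.sum_mul]
        apply Finset.sum_congr rfl
        intro i _
        ring
      rw [e, sphMean_finset_sum]
      · simp only [sphMean_const_mul]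
        exact hall P r hr0
      · intro i _
        exact (continuous_const.mul (((huc i).comp hs).mul
          (contDiff_pf P 0).continuous)).continuousOn
    have h := sphere_complete hg hmom (norm_nu hx)
    have hx' : r • nu x = x := by
      unfold nu
      rw [smul_smul, mul_inv_cancel₀ hr0.ne', one_smul]
    simpa [hx'] using h
  have hU0 : ∀ x, ∑ i, a i * u i x = 0 := by
    intro x
    by_cases hx : x = 0
    · subst hx
      set e : EE (m + 3) := EuclideanSpace.single (0 : Fin (m + 3)) (1 : ℝ) with he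
      have he0 : e ≠ 0 := by
        intro h
        have := congrArg (fun v : EE (m + 3) => v 0) h
        simp [he] at this
      have hφ : Continuous (fun t : ℝ => ∑ i, a i * u i (t • e)) :=
        hUc.comp (continuous_id.smul continuous_const)
      have hclosed : IsClosed {t : ℝ | ∑ i, a i * u i (t • e) = 0} :=
        isClosed_eq hφ continuous_const
      have hsub : Ioi (0 : ℝ) ⊆ {t : ℝ | ∑ i, a i * u i (t • e) = 0} := by
        intro t ht
        exact hU (t • e) (smul_ne_zero (ne_of_gt ht) he0)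
      have h0 : (0 : ℝ) ∈ closure (Ioi (0 : ℝ)) := by
        rw [closure_Ioi]
        exact self_mem_Ici
      have := hclosed.closure_subset_iff.mpr hsub h0
      simpa using this
    · exact hU x hx
  have hz := Fintype.linearIndependent_iff.mp hlin a (by
    funext x
    simpa using hU0 x)
  exact ha0 (funext hz)

/-- Sharp dimension bound for rotationally symmetric manifolds with nonnegative Ricci
curvature, in dimension `m + 3`: if `f r0 ≤ α r0` then harmonic functions of growth order `d`
only involve the modes `l` with `l (l + n - 2) ≤ α^2 d (d + n - 2)`. -/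
theorem rotsym_sharp_aux (m : ℕ) (f : ℝ → ℝ) (hf : ContDiff ℝ 2 f) (hf0 : f 0 = 0)
    (hf1 : deriv f 0 = 1) (hpos : ∀ r, 0 < r → 0 < f r)
    (hric : ∀ r, 0 < r → deriv (deriv f) r ≤ 0)
    (α r0 : ℝ) (hr0 : 0 < r0) (hfα : f r0 ≤ α * r0)
    (d : ℝ) (hd0 : 0 ≤ d) (L : ℕ)
    (hL : α ^ 2 * (d * (d + m + 1)) < ((L : ℝ) + 1) * (L + m + 2))
    {ι : Type} [Fintype ι] (u : ι → EE (m + 3) → ℝ) (hu : ∀ i, ContDiff ℝ 2 (u i))
    (hharm : ∀ i x, x ≠ 0 → rotLaplacian (m + 3) f (u i) x = 0)
    (hgrowth : ∀ i, ∃ C, ∀ x, |u i x| ≤ C * (1 + ‖x‖) ^ d)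
    (hlin : LinearIndependent ℝ u) :
    Fintype.card ι ≤ ∑ l ∈ Finset.range (L + 1), Module.finrank ℝ (harmSub (m + 3) l) := by
  have hmono := monotone_of_concave_pos hf hpos hric
  refine rotsym_count_aux m L f hf hf0 hf1 hpos hric u hu hharm ?_ hlin
  intro a l Y hl hY hrd r hr
  choose C hC using hgrowth
  choose C' hC' using fun i => cfun_growth_real (u i) Y (hC i)
  have hdl : α ^ 2 * (d * (d + m + 1)) < (l : ℝ) * (l + m + 1) := by
    have h1 : (L : ℝ) + 1 ≤ l := by exact_mod_cast hl
    have h2 : (0 : ℝ) ≤ L := by positivity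
    have h3 : (0 : ℝ) ≤ m := by positivity
    have h4 : ((L : ℝ) + 1) * (L + m + 2) ≤ (l : ℝ) * (l + m + 1) := by
      apply mul_le_mul h1 (by linarith) (by positivity) (by linarith)
    linarith
  refine radial_vanish_sharp hrd hmono hr0 hfα hd0 hdl (C := ∑ i, |a i| * |C' i|) ?_ hr
  intro s hs
  calc |∑ i, a i * cfun (u i) Y s| ≤ ∑ i, |a i * cfun (u i) Y s| :=
        Finset.abs_sum_le_sum_abs _ _
    _ ≤ ∑ i, |a i| * |C' i| * (1 + s) ^ d := by
        apply Finset.sum_le_sum
        intro i _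
        rw [abs_mul, mul_assoc]
        apply mul_le_mul_of_nonneg_left _ (abs_nonneg _)
        have hp : 0 ≤ (1 + s) ^ d := Real.rpow_nonneg (by linarith) _
        exact le_trans (hC' i s hs) (mul_le_mul_of_nonneg_right (le_abs_self _) hp)
    _ = (∑ i, |a i| * |C' i|) * (1 + s) ^ d := by rw [Finset.sum_mul]

end Vale.Agent.Lib.P225
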