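import Mathlib

namespace Vale.Agent.Lib.P225

open MvPolynomial

/-- The Laplacian on real polynomials in `n` variables. -/
noncomputable def lapP (n : ℕ) : MvPolynomial (Fin n) ℝ →ₗ[ℝ] MvPolynomial (Fin n) ℝ :=
  ∑ i : Fin n, (pderiv i).toLinearMap ∘ₗ (pderiv i).toLinearMap

/-- The polynomial `x_1^2 + ... + x_n^2`. -/
noncomputable def rsq (n : ℕ) : MvPolynomial (Fin n) ℝ := ∑ i : Fin n, X i ^ 2

variable {n : ℕ}

lemma lapP_apply (P : MvPolynomial (Fin n) ℝ) :
    lapP n P = ∑ i : Fin n, pderiv i (pderiv i P) := by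
  simp [lapP]

lemma pderiv_rsq (i : Fin n) : pderiv i (rsq n) = 2 * X i := by
  classical
  simp only [rsq, map_sum, pderiv_pow, pderiv_X, Pi.single_apply]
  rw [Finset.sum_eq_single i]
  · simp
  · intro j _ hj
    simp [hj]
  · simp

lemma isHomogeneous_rsq : (rsq n).IsHomogeneous 2 := by
  unfold rsq
  apply IsHomogeneous.sum
  intro i _
  exact isHomogeneous_X_pow i 2

lemma lapP_isHomogeneous {Q : MvPolynomial (Fin n) ℝ} {d : ℕ} (hQ : Q.IsHomogeneous d) :
    (lapP n Q).IsHomogeneous (d - 1 - 1) := by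
  rw [lapP_apply]
  apply IsHomogeneous.sum
  intro i _
  exact hQ.pderiv.pderiv

/-- The key identity `Δ(r² Q) = (2n + 4e) Q + r² ΔQ` for `Q` homogeneous of degree `e`. -/
lemma lapP_rsq_mul {Q : MvPolynomial (Fin n) ℝ} {e : ℕ} (hQ : Q.IsHomogeneous e) :
    lapP n (rsq n * Q) = ((2 * n + 4 * e : ℕ) : ℝ) • Q + rsq n * lapP n Q := by
  rw [lapP_apply, lapP_apply]
  have h1 : ∀ i : Fin n, pderiv i (pderiv i (rsq n * Q))
      = 2 * Q + 4 * (X i * pderiv i Q) + rsq n * pderiv i (pderiv i Q) := by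
    intro i
    simp only [pderiv_mul, pderiv_rsq, map_add, pderiv_X_self]
    have : pderiv i (2 : MvPolynomial (Fin n) ℝ) = 0 := by
      rw [show (2 : MvPolynomial (Fin n) ℝ) = C 2 from (map_ofNat C 2).symm, pderiv_C]
    rw [this]
    ring
  simp_rw [h1]
  rw [Finset.sum_add_distrib, Finset.sum_add_distrib, ← Finset.mul_sum, ← Finset.mul_sum,
    hQ.sum_X_mul_pderiv, Finset.sum_const, Finset.card_univ, Fintype.card_fin]
  congr 1
  · rw [smul_eq_C_mul, nsmul_eq_mul, nsmul_eq_mul]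
    push_cast
    simp only [map_add, map_mul, map_natCast, map_ofNat]
    ring
  · rw [Finset.mul_sum]

/-- No homogeneous polynomial is an eigenvector of `Q ↦ r² ΔQ` with negative eigenvalue. -/
lemma eigen_zero (hn : 1 ≤ n) : ∀ (e : ℕ) (Q : MvPolynomial (Fin n) ℝ), Q.IsHomogeneous e →
    ∀ μ : ℝ, 0 < μ → rsq n * lapP n Q = (-μ) • Q → Q = 0 := by
  intro e
  induction e using Nat.strong_induction_on with
  | _ e ih =>
    intro Q hQ μ hμ hQeq
    by_contra hne
    have hne' : (-μ) • Q ≠ 0 := by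
      intro h0
      rcases smul_eq_zero.mp h0 with h1 | h1
      · linarith
      · exact hne h1
    have hlap := lapP_isHomogeneous hQ
    have hdeg : (rsq n * lapP n Q).IsHomogeneous (2 + (e - 1 - 1)) := isHomogeneous_rsq.mul hlap
    have hdeg' : ((-μ) • Q).IsHomogeneous e := by
      have := (homogeneousSubmodule (Fin n) ℝ e).smul_mem (-μ) hQ
      exact this
    rw [hQeq] at hdeg
    have he : 2 + (e - 1 - 1) = e := hdeg.inj_right hdeg' hne'
    have he2 : 2 ≤ e := by omega
    -- Q = rsq * Q1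
    set Q1 : MvPolynomial (Fin n) ℝ := (-(1 / μ)) • lapP n Q with hQ1
    have hQ1h : Q1.IsHomogeneous (e - 2) := by
      have h2 : e - 1 - 1 = e - 2 := by omega
      rw [h2] at hlap
      exact (homogeneousSubmodule (Fin n) ℝ (e - 2)).smul_mem _ hlap
    have hQQ1 : Q = rsq n * Q1 := by
      rw [hQ1, mul_smul_comm, hQeq, smul_smul]
      have : -(1 / μ) * -μ = 1 := by field_simp
      rw [this, one_smul]
    have hlapQ : lapP n Q = (-μ) • Q1 := by
      rw [hQ1, smul_smul]
      have : -μ * -(1 / μ) = 1 := by field_simp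
      rw [this, one_smul]
    have h3 := lapP_rsq_mul hQ1h
    rw [← hQQ1, hlapQ] at h3
    have h4 : rsq n * lapP n Q1 = (-(μ + ((2 * n + 4 * (e - 2) : ℕ) : ℝ))) • Q1 := by
      have : rsq n * lapP n Q1 = (-μ) • Q1 - ((2 * n + 4 * (e - 2) : ℕ) : ℝ) • Q1 := by
        rw [h3]; abel
      rw [this, ← sub_smul]
      congr 1
      ring
    have hμ' : 0 < μ + ((2 * n + 4 * (e - 2) : ℕ) : ℝ) := by positivity
    have hQ10 := ih (e - 2) (by omega) Q1 hQ1h _ hμ' h4
    apply hne
    rw [hQQ1, hQ10, mul_zero]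

/-- `Q ↦ Δ(r² Q)` is injective on homogeneous polynomials. -/
lemma lapP_rsq_mul_injective (hn : 1 ≤ n) {Q : MvPolynomial (Fin n) ℝ} {e : ℕ}
    (hQ : Q.IsHomogeneous e) (h : lapP n (rsq n * Q) = 0) : Q = 0 := by
  rw [lapP_rsq_mul hQ] at h
  have hμ : (0 : ℝ) < ((2 * n + 4 * e : ℕ) : ℝ) := by
    have : 0 < 2 * n + 4 * e := by omega
    exact_mod_cast this
  apply eigen_zero hn e Q hQ _ hμ
  have : rsq n * lapP n Q = - (((2 * n + 4 * e : ℕ) : ℝ) • Q) := by
    rw [eq_neg_iff_add_eq_zero, add_comm]; exact h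
  rw [this, neg_smul]

lemma pderiv_of_isHomogeneous_zero {Q : MvPolynomial (Fin n) ℝ} (hQ : Q.IsHomogeneous 0)
    (i : Fin n) : pderiv i Q = 0 := by
  rw [← totalDegree_zero_iff_isHomogeneous, totalDegree_eq_zero_iff_eq_C] at hQ
  rw [hQ, pderiv_C]

lemma lapP_of_degree_lt_two {P : MvPolynomial (Fin n) ℝ} {d : ℕ} (hP : P.IsHomogeneous d)
    (hd : d < 2) : lapP n P = 0 := by
  rw [lapP_apply]
  apply Finset.sum_eq_zero
  intro i _
  have h1 : (pderiv i P).IsHomogeneous (d - 1) := hP.pderiv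
  have h2 : d - 1 = 0 := by omega
  rw [h2] at h1
  exact pderiv_of_isHomogeneous_zero h1 i

instance finite_homog (e : ℕ) : Module.Finite ℝ (homogeneousSubmodule (Fin n) ℝ e) :=
  Module.Finite.iff_fg.mpr (homogeneousSubmodule_fg (Fin n) ℝ e)

/-- The operator `Q ↦ Δ(r² Q)` on homogeneous polynomials of degree `e`. -/
noncomputable def tOp (n e : ℕ) :
    homogeneousSubmodule (Fin n) ℝ e →ₗ[ℝ] homogeneousSubmodule (Fin n) ℝ e :=
  LinearMap.restrict (lapP n ∘ₗ LinearMap.mulLeft ℝ (rsq n)) (by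
    intro Q hQ
    rw [mem_homogeneousSubmodule] at hQ ⊢
    have h1 : (rsq n * Q).IsHomogeneous (2 + e) := isHomogeneous_rsq.mul hQ
    have h2 := lapP_isHomogeneous h1
    have h3 : 2 + e - 1 - 1 = e := by omega
    rw [h3] at h2
    simpa using h2)

lemma tOp_surjective (hn : 1 ≤ n) (e : ℕ) : Function.Surjective (tOp n e) := by
  apply LinearMap.injective_iff_surjective.mp
  rw [← LinearMap.ker_eq_bot, LinearMap.ker_eq_bot']
  intro Q hQ
  have h1 : lapP n (rsq n * Q.1) = 0 := by
    have := congrArg Subtype.val hQ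
    simpa [tOp] using this
  have h2 := lapP_rsq_mul_injective hn Q.2 h1
  exact Subtype.ext h2

/-- Fischer decomposition of a homogeneous polynomial of degree at least two. -/
lemma fischer_step (hn : 1 ≤ n) {P : MvPolynomial (Fin n) ℝ} {e : ℕ} (hP : P.IsHomogeneous (e + 2)) :
    ∃ H Q : MvPolynomial (Fin n) ℝ, H.IsHomogeneous (e + 2) ∧ lapP n H = 0 ∧ Q.IsHomogeneous e ∧
      P = H + rsq n * Q := by
  have hl : (lapP n P).IsHomogeneous e := by
    have := lapP_isHomogeneous hP
    simpa using this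
  obtain ⟨Q, hQ⟩ := tOp_surjective hn e ⟨lapP n P, hl⟩
  have hQ' : lapP n (rsq n * Q.1) = lapP n P := by
    have := congrArg Subtype.val hQ
    simpa [tOp] using this
  refine ⟨P - rsq n * Q.1, Q.1, ?_, ?_, Q.2, by ring⟩
  · have h1 : (rsq n * Q.1).IsHomogeneous (2 + e) := isHomogeneous_rsq.mul Q.2
    rw [add_comm] at h1
    exact hP.sub h1
  · rw [map_sub, hQ', sub_self]

/-- A linear functional on polynomials that kills homogeneous harmonic polynomials and is
compatible with multiplication by `r²` vanishes identically. -/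
lemma functional_vanish (hn : 1 ≤ n) (L : MvPolynomial (Fin n) ℝ →ₗ[ℝ] ℝ) (ρ : ℝ)
    (h1 : ∀ Q, L (rsq n * Q) = ρ * L Q)
    (h2 : ∀ (l : ℕ) (H : MvPolynomial (Fin n) ℝ), H.IsHomogeneous l → lapP n H = 0 → L H = 0)
    (P : MvPolynomial (Fin n) ℝ) : L P = 0 := by
  have hom : ∀ (d : ℕ) (P : MvPolynomial (Fin n) ℝ), P.IsHomogeneous d → L P = 0 := by
    intro d
    induction d using Nat.strong_induction_on with
    | _ d ih =>
      intro P hP
      rcases Nat.lt_or_ge d 2 with hd | hd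
      · exact h2 d P hP (lapP_of_degree_lt_two hP hd)
      · obtain ⟨e, rfl⟩ : ∃ e, d = e + 2 := ⟨d - 2, by omega⟩
        obtain ⟨H, Q, hH, hHl, hQ, rfl⟩ := fischer_step hn hP
        rw [map_add, h2 _ H hH hHl, h1, ih e (by omega) Q hQ]
        simp
  rw [← sum_homogeneousComponent P, map_sum]
  apply Finset.sum_eq_zero
  intro i _
  exact hom i _ (homogeneousComponent_isHomogeneous i P)

lemma finrank_homog (n e : ℕ) :
    Module.finrank ℝ (homogeneousSubmodule (Fin n) ℝ e) = (n + e - 1).choose e := by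
  classical
  have hs : {d : Fin n →₀ ℕ | d.degree = e}
      = ↑((Finset.univ : Finset (Fin n)).finsuppAntidiag e) := by
    ext d
    simp [Finsupp.degree_eq_sum]
  have b := basisRestrictSupport ℝ {d : Fin n →₀ ℕ | d.degree = e}
  have h1 : homogeneousSubmodule (Fin n) ℝ e
      = restrictSupport ℝ {d : Fin n →₀ ℕ | d.degree = e} :=
    homogeneousSubmodule_eq_finsupp_supported (Fin n) ℝ e
  rw [h1, Module.finrank_eq_nat_card_basis b, hs, Nat.card_coe_set_eq, Set.ncard_coe_finset,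
    Finset.card_finsuppAntidiag_nat_eq_choose, Finset.card_univ, Fintype.card_fin]

/-- Homogeneous harmonic polynomials of degree `l`. -/
noncomputable def harmSub (n l : ℕ) : Submodule ℝ (MvPolynomial (Fin n) ℝ) :=
  homogeneousSubmodule (Fin n) ℝ l ⊓ LinearMap.ker (lapP n)

lemma mem_harmSub {l : ℕ} {P : MvPolynomial (Fin n) ℝ} :
    P ∈ harmSub n l ↔ P.IsHomogeneous l ∧ lapP n P = 0 := by
  simp [harmSub]

instance finite_harmSub (l : ℕ) : Module.Finite ℝ (harmSub n l) :=
  Submodule.finiteDimensional_of_le (inf_le_left : harmSub n l ≤ homogeneousSubmodule (Fin n) ℝ l)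

lemma harmSub_of_lt_two {l : ℕ} (hl : l < 2) :
    harmSub n l = homogeneousSubmodule (Fin n) ℝ l := by
  apply le_antisymm inf_le_left
  intro P hP
  exact mem_harmSub.mpr ⟨hP, lapP_of_degree_lt_two hP hl⟩

lemma finrank_harmSub_add (hn : 1 ≤ n) (e : ℕ) :
    Module.finrank ℝ (harmSub n (e + 2)) + Module.finrank ℝ (homogeneousSubmodule (Fin n) ℝ e)
      = Module.finrank ℝ (homogeneousSubmodule (Fin n) ℝ (e + 2)) := by
  set g : homogeneousSubmodule (Fin n) ℝ (e + 2) →ₗ[ℝ] MvPolynomial (Fin n) ℝ :=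
    (lapP n).domRestrict (homogeneousSubmodule (Fin n) ℝ (e + 2)) with hg
  have hrange : LinearMap.range g = homogeneousSubmodule (Fin n) ℝ e := by
    apply le_antisymm
    · rintro _ ⟨P, rfl⟩
      have := lapP_isHomogeneous P.2
      simpa [hg] using this
    · intro R hR
      obtain ⟨Q, hQ⟩ := tOp_surjective hn e ⟨R, hR⟩
      have hQ' : lapP n (rsq n * Q.1) = R := by
        have := congrArg Subtype.val hQ
        simpa [tOp] using this
      have h1 : (rsq n * Q.1).IsHomogeneous (e + 2) := by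
        have := isHomogeneous_rsq.mul Q.2
        rwa [add_comm] at this
      exact ⟨⟨rsq n * Q.1, h1⟩, by simpa [hg] using hQ'⟩
  have hker : (LinearMap.ker g).map (homogeneousSubmodule (Fin n) ℝ (e + 2)).subtype
      = harmSub n (e + 2) := by
    ext P
    simp only [Submodule.mem_map, LinearMap.mem_ker, Submodule.subtype_apply, mem_harmSub]
    constructor
    · rintro ⟨Q, hQ, rfl⟩
      exact ⟨Q.2, by simpa [hg] using hQ⟩
    · rintro ⟨h1, h2⟩
      exact ⟨⟨P, h1⟩, by simpa [hg] using h2, rfl⟩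
  have h3 := LinearMap.finrank_range_add_finrank_ker g
  rw [hrange] at h3
  rw [← hker, Submodule.finrank_map_subtype_eq]
  omega

lemma sum_finrank_harmSub (hn : 1 ≤ n) (k : ℕ) (hk : 1 ≤ k) :
    ∑ l ∈ Finset.range (k + 1), Module.finrank ℝ (harmSub n l)
      = (n + k - 1).choose k + (n + k - 2).choose (k - 1) := by
  have key : ∀ j : ℕ, ∑ l ∈ Finset.range (j + 2), Module.finrank ℝ (harmSub n l)
      = Module.finrank ℝ (homogeneousSubmodule (Fin n) ℝ (j + 1))
        + Module.finrank ℝ (homogeneousSubmodule (Fin n) ℝ j) := by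
    intro j
    induction j with
    | zero =>
      rw [Finset.sum_range_succ, Finset.sum_range_one, harmSub_of_lt_two (by norm_num),
        harmSub_of_lt_two (by norm_num)]
      exact add_comm _ _
    | succ j ih =>
      rw [Finset.sum_range_succ, ih]
      have := finrank_harmSub_add hn j
      have e : j + 1 + 1 = j + 2 := rfl
      rw [e]
      omega
  obtain ⟨j, rfl⟩ : ∃ j, k = j + 1 := ⟨k - 1, by omega⟩
  rw [key j, finrank_homog, finrank_homog]
  have e1 : n + (j + 1) - 1 = n + j := by omega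
  have e2 : n + (j + 1) - 2 = n + j - 1 := by omega
  have e3 : j + 1 - 1 = j := by omega
  rw [e1, e2, e3]

end Vale.Agent.Lib.P225
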