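import Vale.Agent.Lib.P225.Coeff

namespace Vale.Agent.Lib.P225

open MeasureTheory Set Filter Topology MvPolynomial

variable {n : ℕ}

section concave

variable {f : ℝ → ℝ}

lemma deriv_le_one_of_concave (hf : ContDiff ℝ 2 f) (hf1 : deriv f 0 = 1)
    (hric : ∀ r, 0 < r → deriv (deriv f) r ≤ 0) {r : ℝ} (hr : 0 ≤ r) : deriv f r ≤ 1 := by
  have hd1 : ContDiff ℝ 1 (deriv f) := by
    have := hf.iterate_deriv' 1 1
    simpa using this
  have hanti : AntitoneOn (deriv f) (Ici 0) := by
    apply antitoneOn_of_deriv_nonpos (convex_Ici 0) hd1.continuous.continuousOn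
      (hd1.differentiable (by norm_num)).differentiableOn
    intro x hx
    rw [interior_Ici] at hx
    exact hric x hx
  have := hanti (mem_Ici.mpr le_rfl) (mem_Ici.mpr hr) hr
  rwa [hf1] at this

lemma le_self_of_concave (hf : ContDiff ℝ 2 f) (hf0 : f 0 = 0) (hf1 : deriv f 0 = 1)
    (hric : ∀ r, 0 < r → deriv (deriv f) r ≤ 0) {r : ℝ} (hr : 0 ≤ r) : f r ≤ r := by
  have hfd : Differentiable ℝ f := hf.differentiable (by norm_num)
  have hmono : MonotoneOn (fun s => s - f s) (Ici 0) := by
    apply monotoneOn_of_deriv_nonneg (convex_Ici 0)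
    · exact (continuous_id.sub hf.continuous).continuousOn
    · exact (differentiable_id.sub hfd).differentiableOn
    · intro x hx
      rw [interior_Ici] at hx
      have h1 : HasDerivAt (fun s => s - f s) (1 - deriv f x) x :=
        (hasDerivAt_id x).sub (hfd x).hasDerivAt
      rw [h1.deriv]
      have := deriv_le_one_of_concave hf hf1 hric hx.le
      linarith
  have := hmono (mem_Ici.mpr le_rfl) (mem_Ici.mpr hr) hr
  simp only [hf0] at this
  linarith

lemma mul_deriv_le_of_concave (hf : ContDiff ℝ 2 f) (hf0 : f 0 = 0)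
    (hric : ∀ r, 0 < r → deriv (deriv f) r ≤ 0) {r : ℝ} (hr : 0 ≤ r) : r * deriv f r ≤ f r := by
  have hfd : Differentiable ℝ f := hf.differentiable (by norm_num)
  have hd1 : ContDiff ℝ 1 (deriv f) := by
    have := hf.iterate_deriv' 1 1
    simpa using this
  have hdd : Differentiable ℝ (deriv f) := hd1.differentiable (by norm_num)
  have hmono : MonotoneOn (fun s => f s - s * deriv f s) (Ici 0) := by
    apply monotoneOn_of_deriv_nonneg (convex_Ici 0)
    · exact (hf.continuous.sub (continuous_id.mul hd1.continuous)).continuousOn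
    · exact (hfd.sub (differentiable_id.mul hdd)).differentiableOn
    · intro x hx
      rw [interior_Ici] at hx
      have h1 : HasDerivAt (fun s => f s - s * deriv f s)
          (deriv f x - (1 * deriv f x + x * deriv (deriv f) x)) x :=
        (hfd x).hasDerivAt.sub ((hasDerivAt_id x).mul (hdd x).hasDerivAt)
      rw [h1.deriv]
      have := hric x hx
      nlinarith [mem_Ioi.mp hx]
  have := hmono (mem_Ici.mpr le_rfl) (mem_Ici.mpr hr) hr
  simp only [hf0] at this
  linarith

end concave

/-- The coefficient functions of a harmonic function form a regular solution of the radial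
equation. -/
lemma radialData_of_harmonic {m : ℕ} {f : ℝ → ℝ} (hf : ContDiff ℝ 2 f) (hf0 : f 0 = 0)
    (hf1 : deriv f 0 = 1) (hpos : ∀ r, 0 < r → 0 < f r)
    (hric : ∀ r, 0 < r → deriv (deriv f) r ≤ 0) {u : EE (m + 3) → ℝ} (hu : ContDiff ℝ 2 u)
    (hharm : ∀ x, x ≠ 0 → rotLaplacian (m + 3) f u x = 0) {Y : MvPolynomial (Fin (m + 3)) ℝ}
    {l : ℕ} (hY : Y ∈ harmSub (m + 3) l) :
    RadialData m l f (deriv f) (cfun u Y) (cfun1 u Y) (cfun2 u Y) where
  hf := fun r _ => ((hf.differentiable (by norm_num)) r).hasDerivAt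
  hc := fun r _ => hasDerivAt_cfun hu Y r
  hc' := fun r _ => hasDerivAt_cfun1 hu Y r
  fpos := hpos
  fle := fun r hr => le_self_of_concave hf hf0 hf1 hric hr.le
  f'le := fun r hr => mul_deriv_le_of_concave hf hf0 hric hr.le
  ode := fun r hr => by
    have h := cfun_ode hu hharm hY hr (hpos r hr)
    push_cast at h
    rw [← h]
    ring
  bdd := cfun_bdd hu Y

end Vale.Agent.Lib.P225
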