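import Mathlib

namespace Vale.Agent.Lib.P225

open MeasureTheory Set Filter Topology

/-- Euclidean space of dimension `n`. -/
abbrev EE (n : ℕ) : Type := EuclideanSpace ℝ (Fin n)

variable {n : ℕ}

/-- The closed annulus `1 ≤ ‖x‖ ≤ 2`. -/
def ann (n : ℕ) : Set (EE n) := {x | 1 ≤ ‖x‖ ∧ ‖x‖ ≤ 2}

/-- Radial projection to the unit sphere. -/
noncomputable def nu (x : EE n) : EE n := ‖x‖⁻¹ • x

/-- Integral of `G` over the unit sphere, realised as an integral over the annulus. -/
noncomputable def sphMean (G : EE n → ℝ) : ℝ := ∫ x in ann n, G (nu x)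

lemma isCompact_ann : IsCompact (ann n) := by
  have h : ann n = Metric.closedBall (0 : EE n) 2 ∩ (fun x => ‖x‖) ⁻¹' (Ici 1) := by
    ext x
    simp [ann, and_comm]
  rw [h]
  exact (isCompact_closedBall _ _).inter_right (isClosed_Ici.preimage continuous_norm)

lemma measurableSet_ann : MeasurableSet (ann n) := isCompact_ann.measurableSet

lemma norm_pos_of_mem_ann {x : EE n} (hx : x ∈ ann n) : 0 < ‖x‖ := lt_of_lt_of_le one_pos hx.1

lemma norm_nu {x : EE n} (hx : x ≠ 0) : ‖nu x‖ = 1 := by
  have : ‖x‖ ≠ 0 := norm_ne_zero_iff.mpr hx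
  simp [nu, norm_smul, this]

lemma norm_nu_of_mem_ann {x : EE n} (hx : x ∈ ann n) : ‖nu x‖ = 1 :=
  norm_nu (norm_pos_iff.mp (norm_pos_of_mem_ann hx))

lemma continuousOn_nu : ContinuousOn (nu : EE n → EE n) (ann n) := by
  unfold nu
  refine ContinuousOn.smul (f := fun x : EE n => ‖x‖⁻¹) (g := fun x : EE n => x) ?_ continuousOn_id
  apply ContinuousOn.inv₀ continuous_norm.continuousOn
  intro x hx
  exact (norm_pos_of_mem_ann hx).ne'

lemma nu_mapsTo : MapsTo (nu : EE n → EE n) (ann n) (Metric.sphere 0 1) := by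
  intro x hx
  simp [norm_nu_of_mem_ann hx]

lemma continuousOn_comp_nu {G : EE n → ℝ} (hG : ContinuousOn G (Metric.sphere 0 1)) :
    ContinuousOn (fun x => G (nu x)) (ann n) :=
  hG.comp continuousOn_nu nu_mapsTo

lemma integrableOn_comp_nu {G : EE n → ℝ} (hG : ContinuousOn G (Metric.sphere 0 1)) :
    IntegrableOn (fun x => G (nu x)) (ann n) :=
  (continuousOn_comp_nu hG).integrableOn_compact isCompact_ann

lemma sphMean_congr {G H : EE n → ℝ} (h : ∀ y, ‖y‖ = 1 → G y = H y) :
    sphMean G = sphMean H := by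
  unfold sphMean
  apply setIntegral_congr_fun measurableSet_ann
  intro x hx
  exact h _ (norm_nu_of_mem_ann hx)

lemma sphMean_add {G H : EE n → ℝ} (hG : ContinuousOn G (Metric.sphere 0 1))
    (hH : ContinuousOn H (Metric.sphere 0 1)) :
    sphMean (fun y => G y + H y) = sphMean G + sphMean H := by
  unfold sphMean
  exact integral_add (integrableOn_comp_nu hG) (integrableOn_comp_nu hH)

lemma sphMean_sub {G H : EE n → ℝ} (hG : ContinuousOn G (Metric.sphere 0 1))
    (hH : ContinuousOn H (Metric.sphere 0 1)) :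
    sphMean (fun y => G y - H y) = sphMean G - sphMean H := by
  unfold sphMean
  exact integral_sub (integrableOn_comp_nu hG) (integrableOn_comp_nu hH)

lemma sphMean_const_mul (a : ℝ) (G : EE n → ℝ) :
    sphMean (fun y => a * G y) = a * sphMean G := by
  unfold sphMean
  exact integral_const_mul a _

lemma sphMean_neg (G : EE n → ℝ) :
    sphMean (fun y => - G y) = - sphMean G := by
  unfold sphMean
  exact integral_neg _

lemma sphMean_zero : sphMean (fun _ : EE n => (0 : ℝ)) = 0 := by
  unfold sphMean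
  simp

lemma sphMean_finset_sum {ι : Type*} (s : Finset ι) {G : ι → EE n → ℝ}
    (hG : ∀ i ∈ s, ContinuousOn (G i) (Metric.sphere 0 1)) :
    sphMean (fun y => ∑ i ∈ s, G i y) = ∑ i ∈ s, sphMean (G i) := by
  unfold sphMean
  exact integral_finsetSum s (fun i hi => integrableOn_comp_nu (hG i hi))

lemma abs_sphMean_le {G : EE n → ℝ} {M : ℝ} (hG : ∀ y, ‖y‖ = 1 → |G y| ≤ M) :
    |sphMean G| ≤ M * (volume : Measure (EE n)).real (ann n) := by
  unfold sphMean
  have := norm_setIntegral_le_of_norm_le_const (μ := (volume : Measure (EE n))) (s := ann n)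
    (f := fun x => G (nu x)) (C := M) isCompact_ann.measure_lt_top
    (fun x hx => by simpa [Real.norm_eq_abs] using hG _ (norm_nu_of_mem_ann hx))
  simpa [Real.norm_eq_abs] using this

lemma sphMean_nonneg {G : EE n → ℝ} (hG : ∀ y, ‖y‖ = 1 → 0 ≤ G y) : 0 ≤ sphMean G := by
  unfold sphMean
  exact setIntegral_nonneg measurableSet_ann (fun x hx => hG _ (norm_nu_of_mem_ann hx))

/-- Differentiation under the integral sign over a compact set. -/
lemma hasDerivAt_setIntegral_compact {K : Set (EE n)} (hK : IsCompact K) {F F' : ℝ → EE n → ℝ}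
    {t0 a b : ℝ} (ht : t0 ∈ Ioo a b)
    (hF : ∀ t ∈ Ioo a b, ContinuousOn (F t) K)
    (hF' : ContinuousOn (F' t0) K)
    (hd : ∀ x ∈ K, ∀ t ∈ Ioo a b, HasDerivAt (fun s => F s x) (F' t x) t)
    (M : ℝ) (hM : ∀ x ∈ K, ∀ t ∈ Ioo a b, |F' t x| ≤ M) :
    HasDerivAt (fun t => ∫ x in K, F t x) (∫ x in K, F' t0 x) t0 := by
  have hmeas := hK.measurableSet
  have hfin : (volume : Measure (EE n)) K < ⊤ := hK.measure_lt_top
  have hs : Ioo a b ∈ 𝓝 t0 := Ioo_mem_nhds ht.1 ht.2
  refine (hasDerivAt_integral_of_dominated_loc_of_deriv_le (μ := volume.restrict K)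
    (bound := fun _ => M) hs ?_ ?_ ?_ ?_ ?_ ?_).2
  · filter_upwards [hs] with t ht'
    exact (hF t ht').aestronglyMeasurable hmeas
  · exact (hF t0 ht).integrableOn_compact hK
  · exact hF'.aestronglyMeasurable hmeas
  · exact (ae_restrict_iff' hmeas).mpr (Eventually.of_forall (fun x hx t ht' => by
      simpa [Real.norm_eq_abs] using hM x hx t ht'))
  · exact integrableOn_const (hs := hfin.ne)
  · exact (ae_restrict_iff' hmeas).mpr (Eventually.of_forall (fun x hx t ht' => hd x hx t ht'))

/-- The infinitesimal rotation in the plane spanned by `a` and `b`. -/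
noncomputable def Jmap (a b : EE n) : EE n →L[ℝ] EE n :=
  (innerSL ℝ a).smulRight b - (innerSL ℝ b).smulRight a

/-- The projection to the plane spanned by the orthonormal pair `a`, `b`. -/
noncomputable def Pmap (a b : EE n) : EE n →L[ℝ] EE n :=
  (innerSL ℝ a).smulRight a + (innerSL ℝ b).smulRight b

/-- The rotation by angle `t` in the plane spanned by `a` and `b`. -/
noncomputable def rot (a b : EE n) (t : ℝ) : EE n →L[ℝ] EE n :=
  ContinuousLinearMap.id ℝ (EE n) + (Real.cos t - 1) • Pmap a b + Real.sin t • Jmap a b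

lemma Jmap_apply (a b x : EE n) : Jmap a b x = inner ℝ a x • b - inner ℝ b x • a := by
  simp [Jmap]

lemma rot_apply (a b : EE n) (t : ℝ) (x : EE n) :
    rot a b t x = x + (Real.cos t - 1) • Pmap a b x + Real.sin t • Jmap a b x := by
  simp [rot]

lemma rot_zero (a b : EE n) (x : EE n) : rot a b 0 x = x := by
  simp [rot]

lemma norm_rot {a b : EE n} (ha : ‖a‖ = 1) (hb : ‖b‖ = 1) (hab : inner ℝ a b = 0) (t : ℝ)
    (x : EE n) : ‖rot a b t x‖ = ‖x‖ := by
  have haa : inner ℝ a a = (1 : ℝ) := by rw [real_inner_self_eq_norm_sq, ha]; norm_num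
  have hbb : inner ℝ b b = (1 : ℝ) := by rw [real_inner_self_eq_norm_sq, hb]; norm_num
  have hba : inner ℝ b a = (0 : ℝ) := by rw [real_inner_comm]; exact hab
  have hxa : inner ℝ x a = inner ℝ a x := real_inner_comm _ _
  have hxb : inner ℝ x b = inner ℝ b x := real_inner_comm _ _
  have h : ‖rot a b t x‖ ^ 2 = ‖x‖ ^ 2 := by
    rw [← real_inner_self_eq_norm_sq, ← real_inner_self_eq_norm_sq]
    simp only [rot, Pmap, Jmap, add_apply, smul_apply,
      sub_apply, ContinuousLinearMap.smulRight_apply, innerSL_apply_apply,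
      ContinuousLinearMap.id_apply, inner_add_left, inner_add_right, inner_sub_left,
      inner_sub_right, inner_smul_left, inner_smul_right, haa, hbb, hab, hba, hxa, hxb,
      RCLike.conj_to_real]
    have := Real.cos_sq_add_sin_sq t
    linear_combination ((inner ℝ a x) ^ 2 + (inner ℝ b x) ^ 2) * this
  have h2 := abs_eq_abs.mpr (sq_eq_sq_iff_abs_eq_abs _ _ |>.mp h |> abs_eq_abs.mp)
  rwa [abs_of_nonneg (norm_nonneg _), abs_of_nonneg (norm_nonneg _)] at h2

/-- The rotation as a linear isometry equivalence. -/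
noncomputable def rotIso {a b : EE n} (ha : ‖a‖ = 1) (hb : ‖b‖ = 1) (hab : inner ℝ a b = 0)
    (t : ℝ) : EE n ≃ₗᵢ[ℝ] EE n :=
  LinearIsometry.toLinearIsometryEquiv ⟨(rot a b t).toLinearMap, norm_rot ha hb hab t⟩ rfl

lemma rotIso_apply {a b : EE n} (ha : ‖a‖ = 1) (hb : ‖b‖ = 1) (hab : inner ℝ a b = 0)
    (t : ℝ) (x : EE n) : rotIso ha hb hab t x = rot a b t x := rfl

lemma sphMean_comp_isometry (R : EE n ≃ₗᵢ[ℝ] EE n) (G : EE n → ℝ) :
    sphMean (fun y => G (R y)) = sphMean G := by
  unfold sphMean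
  have h1 : ∀ x, R (nu x) = nu (R x) := by
    intro x
    simp [nu, R.norm_map]
  have h2 : R ⁻¹' (ann n) = ann n := by
    ext x
    simp [ann, R.norm_map]
  have h3 := MeasurePreserving.setIntegral_preimage_emb R.measurePreserving
    R.toHomeomorph.measurableEmbedding (fun y => G (nu y)) (ann n)
  rw [← h3]
  simp only [h1]
  rw [h2]

/-- The derivative along the rotation field `Jmap a b`. -/
noncomputable def LJ (J : EE n →L[ℝ] EE n) (G : EE n → ℝ) : EE n → ℝ :=
  fun y => fderiv ℝ G y (J y)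

lemma hasDerivAt_rot (a b y : EE n) (t : ℝ) :
    HasDerivAt (fun s => rot a b s y)
      ((-Real.sin t) • Pmap a b y + Real.cos t • Jmap a b y) t := by
  have h1 : HasDerivAt (fun s => (Real.cos s - 1) • Pmap a b y) ((-Real.sin t) • Pmap a b y) t :=
    ((Real.hasDerivAt_cos t).sub_const 1).smul_const _
  have h2 : HasDerivAt (fun s => Real.sin s • Jmap a b y) (Real.cos t • Jmap a b y) t :=
    (Real.hasDerivAt_sin t).smul_const _
  have h3 := ((hasDerivAt_const t y).add h1).add h2
  simp only [zero_add] at h3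
  refine h3.congr_of_eventuallyEq (Eventually.of_forall (fun s => ?_))
  simp [rot_apply]

/-- Rotation invariance, infinitesimal form: the sphere integral of a rotational derivative
vanishes. -/
lemma sphMean_LJ {a b : EE n} (ha : ‖a‖ = 1) (hb : ‖b‖ = 1) (hab : inner ℝ a b = 0)
    {G : EE n → ℝ} (hG : ContDiff ℝ 1 G) : sphMean (LJ (Jmap a b) G) = 0 := by
  have hGd : Differentiable ℝ G := hG.differentiable (by norm_num)
  have hG' : Continuous (fderiv ℝ G) := hG.continuous_fderiv (by norm_num)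
  obtain ⟨M1, hM1⟩ := (isCompact_sphere (0 : EE n) 1).exists_bound_of_continuousOn
    hG'.continuousOn
  set F : ℝ → EE n → ℝ := fun t x => G (rot a b t (nu x)) with hF
  set F' : ℝ → EE n → ℝ := fun t x => fderiv ℝ G (rot a b t (nu x))
    ((-Real.sin t) • Pmap a b (nu x) + Real.cos t • Jmap a b (nu x)) with hF'
  have key : HasDerivAt (fun t => ∫ x in ann n, F t x) (∫ x in ann n, F' 0 x) 0 := by
    apply hasDerivAt_setIntegral_compact isCompact_ann (a := -1) (b := 1) (by simp)
      (M := M1 * (‖Pmap a b‖ + ‖Jmap a b‖))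
    · intro t _
      exact hG.continuous.comp_continuousOn ((rot a b t).continuous.comp_continuousOn continuousOn_nu)
    · apply ContinuousOn.clm_apply
      · exact hG'.comp_continuousOn ((rot a b 0).continuous.comp_continuousOn continuousOn_nu)
      · have hP : ContinuousOn (fun x : EE n => Pmap a b (nu x)) (ann n) :=
          (Pmap a b).continuous.comp_continuousOn continuousOn_nu
        have hJ : ContinuousOn (fun x : EE n => Jmap a b (nu x)) (ann n) :=
          (Jmap a b).continuous.comp_continuousOn continuousOn_nu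
        exact (hP.const_smul (-Real.sin 0)).add (hJ.const_smul (Real.cos 0))
    · intro x _ t _
      exact (hGd _).hasFDerivAt.comp_hasDerivAt t (hasDerivAt_rot a b (nu x) t)
    · intro x hx t _
      have hnu : ‖nu x‖ = 1 := norm_nu_of_mem_ann hx
      have h1 : ‖fderiv ℝ G (rot a b t (nu x))‖ ≤ M1 := by
        apply hM1
        simp [norm_rot ha hb hab, hnu]
      have h2 : ‖(-Real.sin t) • Pmap a b (nu x) + Real.cos t • Jmap a b (nu x)‖
          ≤ ‖Pmap a b‖ + ‖Jmap a b‖ := by
        have hP : ‖Pmap a b (nu x)‖ ≤ ‖Pmap a b‖ := by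
          simpa [hnu] using (Pmap a b).le_opNorm (nu x)
        have hJ : ‖Jmap a b (nu x)‖ ≤ ‖Jmap a b‖ := by
          simpa [hnu] using (Jmap a b).le_opNorm (nu x)
        calc ‖(-Real.sin t) • Pmap a b (nu x) + Real.cos t • Jmap a b (nu x)‖
            ≤ ‖(-Real.sin t) • Pmap a b (nu x)‖ + ‖Real.cos t • Jmap a b (nu x)‖ :=
              norm_add_le _ _
          _ = |Real.sin t| * ‖Pmap a b (nu x)‖ + |Real.cos t| * ‖Jmap a b (nu x)‖ := by
              simp [norm_smul]
          _ ≤ 1 * ‖Pmap a b‖ + 1 * ‖Jmap a b‖ := by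
              gcongr
              · exact Real.abs_sin_le_one t
              · exact Real.abs_cos_le_one t
          _ = ‖Pmap a b‖ + ‖Jmap a b‖ := by ring
      have hM1' : 0 ≤ M1 := le_trans (norm_nonneg _) h1
      calc |F' t x| ≤ ‖fderiv ℝ G (rot a b t (nu x))‖
            * ‖(-Real.sin t) • Pmap a b (nu x) + Real.cos t • Jmap a b (nu x)‖ := by
              rw [← Real.norm_eq_abs]
              exact ContinuousLinearMap.le_opNorm _ _
        _ ≤ M1 * (‖Pmap a b‖ + ‖Jmap a b‖) := by gcongr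
  have hconst : (fun t => ∫ x in ann n, F t x) = fun _ => sphMean G := by
    funext t
    have := sphMean_comp_isometry (rotIso ha hb hab t) G
    simpa [sphMean, hF, rotIso_apply] using this
  rw [hconst] at key
  have h0 := key.unique (hasDerivAt_const (0 : ℝ) (sphMean G))
  have h1 : sphMean (LJ (Jmap a b) G) = ∫ x in ann n, F' 0 x := by
    simp [sphMean, LJ, hF', rot_zero]
  rw [h1, h0]

end Vale.Agent.Lib.P225
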